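import Vale.Agent.P166.Parisi.QuadCascade.Recursion
import Vale.Agent.P166.Parisi.Tilt

/-!
The bounded cut-off of the quadratic coupling, and its irrelevance uniformly in the levels.
-/

namespace Vale.Agent.P166.Parisi

open MeasureTheory ProbabilityTheory Finset
open Vale.Agent.P157 Vale.Agent.P157.Parisi

namespace QuadC

lemma hasDerivAt_tanh' (x : ℝ) : HasDerivAt Real.tanh (1 - Real.tanh x ^ 2) x := by
  have h := (Real.hasDerivAt_sinh x).div (Real.hasDerivAt_cosh x) (Real.cosh_pos x).ne'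
  have e : Real.tanh = fun x => Real.sinh x / Real.cosh x := funext Real.tanh_eq_sinh_div_cosh
  rw [e]
  refine h.congr_deriv ?_
  have := (Real.cosh_pos x).ne'
  field_simp

lemma abs_tanh_le_one (x : ℝ) : |Real.tanh x| ≤ 1 :=
  abs_le.2 ⟨(Real.neg_one_lt_tanh x).le, (Real.tanh_lt_one x).le⟩

lemma tanh_bounds (x : ℝ) : |Real.tanh x| ≤ |x| ∧ |Real.tanh x - x| ≤ |x| ^ 3 := by
  have hd : ∀ y : ℝ, |1 - Real.tanh y ^ 2| ≤ 1 := fun y => by
    have := sq_le_one_iff_abs_le_one _ |>.2 (abs_tanh_le_one y)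
    rw [abs_of_nonneg (by linarith)]; nlinarith [sq_nonneg (Real.tanh y)]
  have h1 : ∀ y : ℝ, |Real.tanh y| ≤ |y| := fun y => by
    have h := Convex.norm_image_sub_le_of_norm_hasDerivWithin_le (s := Set.univ) (C := 1)
      (f := Real.tanh) (fun z _ => (hasDerivAt_tanh' z).hasDerivWithinAt)
      (fun z _ => hd z) convex_univ (Set.mem_univ 0) (Set.mem_univ y)
    simpa using h
  refine ⟨h1 x, ?_⟩
  have h := Convex.norm_image_sub_le_of_norm_hasDerivWithin_le (s := Metric.closedBall (0:ℝ) |x|)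
    (C := x ^ 2) (f := fun y => Real.tanh y - y) (f' := fun y => -Real.tanh y ^ 2)
    (fun z _ => (((hasDerivAt_tanh' z).sub (hasDerivAt_id z)).congr_deriv
      (by ring)).hasDerivWithinAt)
    (fun z hz => by
      rw [Metric.mem_closedBall, Real.dist_eq, sub_zero] at hz
      rw [Real.norm_eq_abs, abs_neg, abs_pow, ← sq_abs x]
      exact pow_le_pow_left₀ (abs_nonneg _) ((h1 z).trans hz) 2)
    (convex_closedBall _ _) (Metric.mem_closedBall_self (abs_nonneg x))
    (x := (0:ℝ)) (y := x) (by simp)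
  simp only [Real.norm_eq_abs, Real.tanh_zero, sub_zero] at h
  refine h.trans_eq ?_
  rw [← sq_abs]; ring

/-- The argument of the cut-off. -/
noncomputable def cutArg (R x : ℝ) : ℝ := R * Real.tanh (x / R)

lemma cutArg_bounds {R : ℝ} (hR : 0 < R) (x : ℝ) :
    |cutArg R x| ≤ R ∧ |cutArg R x| ≤ |x| ∧ |cutArg R x - x| ≤ |x| ^ 3 / R ^ 2 := by
  obtain ⟨h1, h2⟩ := tanh_bounds (x / R)
  rw [cutArg, abs_mul, abs_of_pos hR]
  refine ⟨mul_le_of_le_one_right hR.le (abs_tanh_le_one _), ?_, ?_⟩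
  · rw [abs_div, abs_of_pos hR, le_div_iff₀ hR] at h1
    linarith
  · rw [show R * Real.tanh (x / R) - x = R * (Real.tanh (x / R) - x / R) by field_simp, abs_mul,
      abs_of_pos hR]
    refine (mul_le_mul_of_nonneg_left h2 hR.le).trans_eq ?_
    rw [abs_div, abs_of_pos hR]
    field_simp

lemma quadPsi_upper {e : ℝ} (he : 0 < e) (b x : ℝ) : quadPsi e b x ≤ b ^ 2 / (2 * e) := by
  rw [quadPsi, le_div_iff₀ (by positivity)]
  nlinarith [sq_nonneg (b - e * x)]

lemma quadPsi_lower {e : ℝ} (he : 0 < e) (b : ℝ) {x T : ℝ} (hT : |T| ≤ |x|) :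
    -((|b| + e) * (1 + x ^ 2)) ≤ quadPsi e b T := by
  have h1 : |b * T| ≤ |b| * (1 + x ^ 2) := by
    rw [abs_mul]
    refine mul_le_mul_of_nonneg_left (hT.trans ?_) (abs_nonneg b)
    nlinarith [sq_nonneg (|x| - 1), abs_nonneg x, sq_abs x]
  have h2 : T ^ 2 ≤ x ^ 2 := sq_le_sq.2 hT
  have h3 := mul_le_mul_of_nonneg_left h2 he.le
  have h4 := mul_nonneg he.le (sq_nonneg x)
  rw [quadPsi]
  linarith [neg_abs_le (b * T)]

end QuadC

open QuadC in
theorem quadCut_ok {e : ℝ} (he : 0 < e) (b : ℝ) :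
    ∃ κ, ∀ R, 1 ≤ R → ∃ B ψ1 ψ2, PsiOk κ B (quadCut R e b) ψ1 ψ2 := by
  refine ⟨3 * e + 2 * |b| + b ^ 2 / (2 * e) + b ^ 2, fun R hR => ?_⟩
  have hR0 : 0 < R := by linarith
  set D : ℝ → ℝ := fun x => 1 - Real.tanh (x / R) ^ 2
  have hb2 : 0 ≤ b ^ 2 / (2 * e) := by positivity
  have hD : ∀ x, 0 ≤ D x ∧ D x ≤ 1 := fun x => by
    have := (sq_le_one_iff_abs_le_one (Real.tanh (x / R))).2 (abs_tanh_le_one _)
    exact ⟨by simp only [D]; linarith, by simp only [D]; linarith [sq_nonneg (Real.tanh (x / R))]⟩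
  have hth : ∀ x, HasDerivAt (fun x => Real.tanh (x / R)) (D x / R) x := fun x => by
    have h := (hasDerivAt_tanh' (x / R)).comp x
      (show HasDerivAt (fun x => x / R) (1 / R) x from (hasDerivAt_id x).div_const R)
    exact h.congr_deriv (by simp only [D]; ring)
  have hT : ∀ x, HasDerivAt (cutArg R) (D x) x := fun x =>
    ((hth x).const_mul R).congr_deriv (mul_div_cancel₀ _ hR0.ne')
  have hDd : ∀ x, HasDerivAt D (-2 * Real.tanh (x / R) * D x / R) x := fun x =>
    (((hth x).pow 2).const_sub 1).congr_deriv (by ring)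
  set ψ1 : ℝ → ℝ := fun x => (b - e * cutArg R x) * D x
  set ψ2 : ℝ → ℝ := fun x => -(e * D x ^ 2) +
    (b - e * cutArg R x) * (-2 * Real.tanh (x / R) * D x / R)
  refine ⟨(|b| + e * R) * (R + 1), ψ1, ψ2, ⟨fun x => ?_, fun x => ?_, ?_, fun x => ?_, fun x => ?_,
    fun x => ?_, fun x => ?_, fun x => ?_, fun x => ?_⟩⟩
  · exact (((hT x).const_mul b).sub ((((hT x).pow 2).const_mul e).div_const 2)).congr_deriv
      (by simp only [ψ1]; push_cast; ring)
  · exact ((((hT x).const_mul e).const_sub b).mul (hDd x)).congr_deriv (by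
      simp only [ψ2]; ring)
  · have hc : Continuous (fun x => Real.tanh (x / R)) :=
      continuous_iff_continuousAt.2 fun x => (hth x).continuousAt
    simp only [ψ2, cutArg, D]
    fun_prop
  · obtain ⟨h1, -, -⟩ := cutArg_bounds hR0 x
    have h2 : |b * cutArg R x| ≤ |b| * R := by
      rw [abs_mul]; exact mul_le_mul_of_nonneg_left h1 (abs_nonneg b)
    have h3 : cutArg R x ^ 2 ≤ R ^ 2 := sq_le_sq.2 (h1.trans (le_abs_self R))
    have h4 := mul_le_mul_of_nonneg_left h3 he.le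
    have h5 := mul_nonneg he.le (sq_nonneg (cutArg R x))
    show |quadPsi e b (cutArg R x)| ≤ _
    rw [quadPsi, abs_le]
    have := abs_le.1 h2
    constructor <;> nlinarith [abs_nonneg b, mul_nonneg he.le hR0.le]
  · obtain ⟨h1, -, -⟩ := cutArg_bounds hR0 x
    obtain ⟨d0, d1⟩ := hD x
    simp only [ψ1]
    rw [abs_mul, abs_of_nonneg d0]
    have h3 : |b - e * cutArg R x| ≤ |b| + e * R := by
      refine (abs_sub _ _).trans (add_le_add le_rfl ?_)
      rw [abs_mul, abs_of_pos he]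
      exact mul_le_mul_of_nonneg_left h1 he.le
    calc |b - e * cutArg R x| * D x ≤ (|b| + e * R) * 1 :=
          mul_le_mul h3 d1 d0 (by positivity)
      _ ≤ _ := mul_le_mul_of_nonneg_left (by linarith) (by positivity)
  · obtain ⟨d0, d1⟩ := hD x
    set τ := Real.tanh (x / R)
    have hτ : |τ| ≤ 1 := abs_tanh_le_one _
    have e1 : (b - e * cutArg R x) * (-2 * τ * D x / R) =
        -2 * (b * τ * D x / R) + 2 * (e * τ ^ 2 * D x) := by
      simp only [cutArg, τ]; field_simp; ring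
    simp only [ψ2]
    rw [e1]
    have hbt : |b * τ * D x / R| ≤ |b| := by
      rw [abs_div, abs_mul, abs_mul, abs_of_nonneg d0, abs_of_pos hR0, div_le_iff₀ hR0]
      calc |b| * |τ| * D x ≤ |b| * 1 * 1 :=
            mul_le_mul (mul_le_mul_of_nonneg_left hτ (abs_nonneg b)) d1 d0 (by positivity)
        _ ≤ |b| * R := by rw [mul_one, mul_one]; exact le_mul_of_one_le_right (abs_nonneg b) hR
    have hte : e * τ ^ 2 * D x ≤ e :=
      (mul_le_mul (mul_le_mul_of_nonneg_left ((sq_le_one_iff_abs_le_one τ).2 hτ) he.le) d1 d0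
        (by positivity)).trans_eq (by ring)
    have hte0 : 0 ≤ e * τ ^ 2 * D x := by positivity
    have hde : e * D x ^ 2 ≤ e := mul_le_of_le_one_right he.le (pow_le_one₀ d0 d1)
    have hde0 : 0 ≤ e * D x ^ 2 := by positivity
    have := abs_le.1 hbt
    rw [abs_le]
    constructor <;> nlinarith [sq_nonneg b, abs_nonneg b]
  · refine (quadPsi_upper he b _).trans ?_
    nlinarith [abs_nonneg b, sq_nonneg b]
  · refine le_trans (neg_le_neg ?_) (quadPsi_lower he b (cutArg_bounds hR0 x).2.1)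
    refine mul_le_mul_of_nonneg_right ?_ (by positivity)
    linarith [abs_nonneg b, sq_nonneg b]
  · obtain ⟨d0, d1⟩ := hD x
    have h1 : ψ1 x ^ 2 ≤ b ^ 2 - 2 * e * quadPsi e b (cutArg R x) := by
      have h := mul_le_of_le_one_right (sq_nonneg (b - e * cutArg R x)) (pow_le_one₀ (n := 2) d0 d1)
      simp only [ψ1, mul_pow]
      rw [quadPsi]
      nlinarith
    show ψ1 x ^ 2 ≤ _ * (1 + |quadPsi e b (cutArg R x)|)
    have h2 := mul_le_mul_of_nonneg_left (neg_abs_le (quadPsi e b (cutArg R x))) he.le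
    nlinarith [abs_nonneg b, abs_nonneg (quadPsi e b (cutArg R x)), sq_nonneg b,
      mul_nonneg hb2 (abs_nonneg (quadPsi e b (cutArg R x)))]

namespace QuadC

variable {J : Type} [Fintype J] {k : ℕ}

omit [Fintype J] in
lemma tauNest_good (K : ℕ) (π : ℕ → ℝ) (e : ℕ → Fin k → ℝ) :
    (tauNest (J := J) K π e).Good where
  x_zero := by simp [tauNest, gridX, lvl]
  x_last := by
    show gridX K (K + 1 + 1) = 1
    refine min_eq_left ((one_le_div (by positivity)).2 ?_)
    push_cast; linarith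
  x_pos l h1 _ := lt_min one_pos (div_pos (by exact_mod_cast h1) (by positivity))
  x_mono l _ := min_le_min le_rfl (div_le_div_of_nonneg_right (by simp) (by positivity))

/-- Without couplings: independent spins. -/
lemma tauLog_zero (t : J → Fin k) :
    tauLog t (fun _ _ => (0:ℝ)) = fun y => ∑ i, Real.log (Real.cosh (y (Sum.inr i))) := by
  have h : (fun (_ : J) (_ : ℝ) => (0:ℝ)) = fun _ => quadPsi 0 0 := by
    funext j x; simp [quadPsi]
  funext y
  rw [h, tauLog_quad]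
  simp [quadU, sOf]

lemma tauLog_le (t : J → Fin k) {ψ φ : J → ℝ → ℝ} {δ : ℝ} (y : J ⊕ Fin k → ℝ)
    (h : ∀ j, ∀ s : ℝ, s ^ 2 = 1 → ψ j (s * y (Sum.inl j)) ≤ φ j (s * y (Sum.inl j)) + δ) :
    tauLog t ψ y ≤ tauLog t φ y + (Fintype.card J : ℝ) * δ := by
  have hpos : ∀ χ : J → ℝ → ℝ, 0 < 1 / (2 : ℝ) ^ k * ∑ τ : Fin k → Bool,
      Real.exp ((∑ j, χ j (spin τ (t j) * y (Sum.inl j))) + ∑ i, spin τ i * y (Sum.inr i)) :=
    fun χ => mul_pos (by positivity) (sum_pos (fun τ _ => Real.exp_pos _) univ_nonempty)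
  simp only [tauLog]
  rw [← Real.log_exp ((Fintype.card J : ℝ) * δ), ← Real.log_mul (hpos φ).ne' (Real.exp_pos _).ne']
  refine Real.log_le_log (hpos ψ) ?_
  rw [mul_assoc, Finset.sum_mul]
  refine mul_le_mul_of_nonneg_left (sum_le_sum fun τ _ => ?_) (by positivity)
  rw [← Real.exp_add, Real.exp_le_exp]
  have h1 : ∑ j, ψ j (spin τ (t j) * y (Sum.inl j)) ≤
      ∑ j, (φ j (spin τ (t j) * y (Sum.inl j)) + δ) := sum_le_sum fun j _ =>
    h j _ (by unfold spin; split <;> norm_num)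
  rw [sum_add_distrib, sum_const, card_univ, nsmul_eq_mul] at h1
  linarith

lemma continuous_tauLog (t : J → Fin k) {ψ : J → ℝ → ℝ} (hψ : ∀ j, Continuous (ψ j)) :
    Continuous (tauLog t ψ) := by
  unfold tauLog
  refine Continuous.log (by fun_prop) fun y => ne_of_gt ?_
  exact mul_pos (by positivity) (sum_pos (fun τ _ => Real.exp_pos _) univ_nonempty)

/-- The squared coordinates. -/
def sqW (y : J ⊕ Fin k → ℝ) : ℝ := ∑ j, y (Sum.inl j) ^ 2

lemma tauLog_bounds (t : J → Fin k) {κ : J → ℝ} (hκ : ∀ j, 0 ≤ κ j) {ψ : J → ℝ → ℝ}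
    (hu : ∀ j x, ψ j x ≤ κ j) (hl : ∀ j x, -(κ j * (1 + x ^ 2)) ≤ ψ j x) (y : J ⊕ Fin k → ℝ) :
    tauLog t ψ y ≤ tauLog t (fun _ _ => 0) y + (Fintype.card J : ℝ) * ∑ j, κ j ∧
      tauLog t (fun _ _ => 0) y - (Fintype.card J : ℝ) * (∑ j, κ j) * (1 + sqW y) ≤
        tauLog t ψ y := by
  have hW : 0 ≤ sqW y := sum_nonneg fun j _ => sq_nonneg _
  have hle : ∀ j, κ j ≤ ∑ i, κ i := fun j => single_le_sum (fun i _ => hκ i) (mem_univ j)
  refine ⟨tauLog_le t y fun j s _ => by simpa using (hu j _).trans (hle j), ?_⟩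
  have h := tauLog_le t (ψ := fun _ _ => 0) (φ := ψ) (δ := (∑ j, κ j) * (1 + sqW y)) y
    fun j s hs => by
      have h1 := hl j (s * y (Sum.inl j))
      rw [mul_pow, hs, one_mul] at h1
      have h2 : y (Sum.inl j) ^ 2 ≤ sqW y :=
        single_le_sum (f := fun i => y (Sum.inl i) ^ 2) (fun i _ => sq_nonneg _) (mem_univ j)
      have h3 : κ j * (1 + y (Sum.inl j) ^ 2) ≤ (∑ i, κ i) * (1 + sqW y) :=
        mul_le_mul (hle j) (by linarith) (by positivity) (sum_nonneg fun i _ => hκ i)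
      linarith
  linarith [h, mul_assoc (Fintype.card J : ℝ) (∑ j, κ j) (1 + sqW y)]

lemma linGrowth_tauZero (t : J → Fin k) : LinGrowth (tauLog t fun (_ : J) (_ : ℝ) => (0:ℝ)) := by
  refine ⟨continuous_tauLog t fun _ => continuous_const, 0, 1, le_rfl, zero_le_one, fun y => ?_⟩
  rw [tauLog_zero, zero_add, one_mul, l1, Fintype.sum_sum_type]
  refine (abs_sum_le_sum_abs _ _).trans ?_
  have h1 : ∑ i : Fin k, |Real.log (Real.cosh (y (Sum.inr i)))| ≤ ∑ i : Fin k, |y (Sum.inr i)| :=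
    sum_le_sum fun i _ => by simpa using lip1_logCosh.abs_sub (y (Sum.inr i)) 0
  linarith [sum_nonneg fun j (_ : j ∈ univ) => abs_nonneg (y (Sum.inl j : J ⊕ Fin k))]

lemma semi_tauLog (t : J → Fin k) {κ : J → ℝ} (hκ : ∀ j, 0 ≤ κ j) {ψ : J → ℝ → ℝ}
    (hc : ∀ j, Continuous (ψ j))
    (hu : ∀ j x, ψ j x ≤ κ j) (hl : ∀ j x, -(κ j * (1 + x ^ 2)) ≤ ψ j x) :
    Semi (tauLog t ψ) := by
  obtain ⟨-, C₀, k₀, hC₀, hk₀, hC'⟩ := linGrowth_tauZero (J := J) t
  set C := C₀ + k₀ with hCd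
  have hC : ∀ y, |tauLog t (fun (_ : J) (_ : ℝ) => (0:ℝ)) y| ≤ C * (1 + ∑ i, |y i|) := fun y => by
    refine (hC' y).trans ?_
    have := sum_nonneg fun i (_ : i ∈ univ) => abs_nonneg (y i)
    rw [l1, hCd]
    nlinarith
  set D := (Fintype.card J : ℝ) * ∑ j, κ j
  have hD : 0 ≤ D := mul_nonneg (Nat.cast_nonneg _) (sum_nonneg fun j _ => hκ j)
  have hC0 : 0 ≤ C := by positivity
  refine ⟨continuous_tauLog t hc, (Fintype.card (J ⊕ Fin k) + 2) * C + D, fun y => ?_⟩
  obtain ⟨h1, h2⟩ := tauLog_bounds t hκ hu hl y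
  have h0 := abs_le.1 (hC y)
  have hl1 : 0 ≤ ∑ i, |y i| := sum_nonneg fun i _ => abs_nonneg _
  have hsq : sqW y ≤ ∑ i, y i ^ 2 := by
    rw [Fintype.sum_sum_type, sqW]
    exact le_add_of_nonneg_right (sum_nonneg fun i _ => sq_nonneg _)
  have hls : ∑ i, |y i| ≤ Fintype.card (J ⊕ Fin k) + ∑ i, y i ^ 2 := by
    refine (sum_le_sum fun i _ => show |y i| ≤ 1 + y i ^ 2 by
      nlinarith [sq_abs (y i), sq_nonneg (|y i| - 1), abs_nonneg (y i)]).trans_eq ?_
    simp [sum_add_distrib]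
  have hS : 0 ≤ ∑ i, y i ^ 2 := sum_nonneg fun i _ => sq_nonneg _
  have hn : (0:ℝ) ≤ Fintype.card (J ⊕ Fin k) := Nat.cast_nonneg _
  constructor
  · nlinarith [mul_nonneg hD hl1, mul_nonneg (mul_nonneg hn hC0) hl1, mul_nonneg hn hC0,
      mul_nonneg hC0 hl1]
  · nlinarith [mul_le_mul_of_nonneg_left hsq hD, mul_le_mul_of_nonneg_left hls hC0,
      mul_nonneg (mul_nonneg hn hC0) hS, mul_nonneg hC0 hS]

lemma quadU_zero (t : J → Fin k) (g : Fin k → ℝ → ℝ) (c : ℝ) :
    quadU t (fun _ => 0) (fun _ => 0) g c = fun y => c + ∑ i, g i (y (Sum.inr i)) := by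
  funext y; simp [quadU, sOf]

/-- One averaging of the squared coordinates under a tilt which does not see them. -/
lemma tilt_sqW (t : J → Fin k) {g : Fin k → ℝ → ℝ} (hg : ∀ i, Lip1 (g i)) (c c' : ℝ) {m : ℝ}
    (hm : 0 < m) {v : ℝ} (hv : 0 ≤ v) (e : Fin k → ℝ) (y : J ⊕ Fin k → ℝ) :
    tilt m (Sum.elim (fun _ : J => Real.sqrt v) e) (quadU t (fun _ => 0) (fun _ => 0) g c)
      (fun y z => sqW (move (Sum.elim (fun _ : J => Real.sqrt v) e) y z) + c') y =
      sqW y + (Fintype.card J : ℝ) * v + c' := by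
  classical
  set s : J ⊕ Fin k → ℝ := Sum.elim (fun _ => Real.sqrt v) e with hs
  set F : J ⊕ Fin k → ℝ → ℝ :=
    Sum.elim (fun _ _ => 1) fun i x => Real.exp (m * g i (y (Sum.inr i) + e i * x))
  set G : J → J ⊕ Fin k → ℝ → ℝ := fun j q x =>
    (if q = Sum.inl j then (y (Sum.inl j) + Real.sqrt v * x) ^ 2 else 1) * F q x
  have hF : ∀ q, Integrable (F q) (gaussianReal 0 1) := by
    rintro (j | i)
    · exact integrable_const _
    · exact (hg i).exp_integrable hm.le _ _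
  have hquad : ∀ j : J, Integrable (fun x => (y (Sum.inl j) + Real.sqrt v * x) ^ 2)
      (gaussianReal 0 1) := fun j =>
    ((memLp_const (y (Sum.inl j))).add
      ((memLp_id_gaussianReal 2).const_mul (Real.sqrt v))).integrable_sq
  have hG : ∀ j q, Integrable (G j q) (gaussianReal 0 1) := by
    rintro j (j' | i) <;> simp only [G]
    · by_cases h : (Sum.inl j' : J ⊕ Fin k) = Sum.inl j
      · simp only [h, if_true, F, Sum.elim_inl, mul_one]; exact hquad j
      · simp [h, F]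
    · simpa using hF (Sum.inr i)
  have hexp : ∀ z, Real.exp (m * quadU t (fun _ => 0) (fun _ => 0) g c (move s y z)) =
      Real.exp (m * c) * ∏ q, F q (z q) := fun z => by
    rw [quadU_zero]
    simp only [Fintype.prod_sum_type, F, Sum.elim_inl, Sum.elim_inr, prod_const_one, one_mul,
      ← Real.exp_sum, ← Real.exp_add, mul_add, mul_sum, move, hs]
  have hsq : ∀ z, (∏ q, F q (z q)) * sqW (move s y z) = ∑ j, ∏ q, G j q (z q) := fun z => by
    rw [sqW, mul_sum]
    refine sum_congr rfl fun j _ => ?_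
    simp only [G, prod_mul_distrib, prod_ite_eq', mem_univ, if_true, move, hs, Sum.elim_inl]
    ring
  have iF : Integrable (fun z : J ⊕ Fin k → ℝ => ∏ q, F q (z q)) (gauss _) :=
    Integrable.fintype_prod hF
  have iG : ∀ j, Integrable (fun z : J ⊕ Fin k → ℝ => ∏ q, G j q (z q)) (gauss _) := fun j =>
    Integrable.fintype_prod (hG j)
  have hgm : ∫ z, ∏ q, F q (z q) ∂gauss (J ⊕ Fin k) = ∏ q, ∫ x, F q x ∂gaussianReal 0 1 :=
    integral_fintype_prod_eq_prod F
  have hpos : 0 < ∏ q, ∫ x, F q x ∂gaussianReal 0 1 := prod_pos fun q _ => by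
    rcases q with j | i
    · simp [F]
    · exact (hg i).step_pos hm _ _
  have hone : ∀ j, ∫ x, (y (Sum.inl j) + Real.sqrt v * x) ^ 2 ∂gaussianReal 0 1 =
      y (Sum.inl j) ^ 2 + v := fun j => by
    have h2 : Integrable (fun x : ℝ => x ^ 2) (gaussianReal 0 1) :=
      (memLp_id_gaussianReal 2).integrable_sq
    have h1 : Integrable (fun x : ℝ => x) (gaussianReal 0 1) :=
      (memLp_id_gaussianReal 1).integrable le_rfl
    have hv2 : ∫ x : ℝ, x ^ 2 ∂gaussianReal 0 1 = 1 := by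
      have := variance_id_gaussianReal (μ := 0) (v := 1)
      rw [variance_eq_integral (by fun_prop)] at this
      simpa using this
    rw [show (fun x => (y (Sum.inl j) + Real.sqrt v * x) ^ 2) = fun x =>
      y (Sum.inl j) ^ 2 + (2 * y (Sum.inl j) * Real.sqrt v * x + v * x ^ 2) from
        funext fun x => by rw [add_sq, mul_pow, Real.sq_sqrt hv]; ring,
      integral_add (integrable_const _) (show Integrable
        (fun x => 2 * y (Sum.inl j) * Real.sqrt v * x + v * x ^ 2) (gaussianReal 0 1) from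
          (h1.const_mul _).add (h2.const_mul v)),
      integral_add (h1.const_mul _) (h2.const_mul v), integral_const, integral_const_mul,
      integral_const_mul, integral_id_gaussianReal, hv2, probReal_univ, one_smul, mul_zero,
      zero_add, mul_one]
  have hGint : ∀ j, ∫ z, ∏ q, G j q (z q) ∂gauss (J ⊕ Fin k) =
      (y (Sum.inl j) ^ 2 + v) * ∏ q, ∫ x, F q x ∂gaussianReal 0 1 := fun j => by
    rw [show ∫ z, ∏ q, G j q (z q) ∂gauss (J ⊕ Fin k) = ∏ q, ∫ x, G j q x ∂gaussianReal 0 1 from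
      integral_fintype_prod_eq_prod (G j)]
    rw [show y (Sum.inl j) ^ 2 + v = ∏ q : J ⊕ Fin k,
      if q = Sum.inl j then y (Sum.inl j) ^ 2 + v else 1 by simp, ← prod_mul_distrib]
    refine prod_congr rfl fun q _ => ?_
    by_cases h : q = Sum.inl j
    · subst h; simp [G, F, hone]
    · simp [G, h]
  show (∫ z, Real.exp (m * _) * (sqW (move s y z) + c') ∂gauss _) / (∫ z, _ ∂gauss _) = _
  simp only [hexp, mul_add, mul_assoc, hsq]
  rw [integral_add ((integrable_finsetSum _ fun j _ => iG j).const_mul _)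
    ((iF.mul_const _).const_mul _), integral_const_mul, integral_const_mul, integral_const_mul,
    integral_finsetSum _ fun j _ => iG j, integral_mul_const, hgm,
    sum_congr rfl fun j _ => hGint j, ← sum_mul, sum_add_distrib, sum_const, card_univ,
    nsmul_eq_mul, sqW]
  have := hpos.ne'
  have := (Real.exp_pos (m * c)).ne'
  field_simp

lemma down_sqW (t : J → Fin k) (K : ℕ) {π : ℕ → ℝ} (hπ : IsPath π) (e : ℕ → Fin k → ℝ) :
    (tauNest (J := J) K π e).down (tauLog t fun _ _ => 0) 0 sqW =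
      fun y => sqW y + (Fintype.card J : ℝ) * (π (K + 1) - π 0) := by
  set N := tauNest (J := J) K π e with hN
  set U := tauLog t fun (_ : J) (_ : ℝ) => (0:ℝ)
  have hamp : ∀ l, N.amp (l + 1) =
      Sum.elim (fun _ : J => Real.sqrt (π (l + 1) - π l)) (e (l + 1)) := fun l => by
    simp [hN, tauNest]
  have hx : ∀ l, 0 < N.x (l + 1) := fun l => lt_min one_pos (QuadC.lvl_pos K l)
  have key : ∀ n ≤ K + 1, (∃ g c, (∀ i, Lip1 (g i)) ∧
      N.u U (K + 1 - n) = quadU t (fun _ => 0) (fun _ => 0) g c) ∧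
      N.down U (K + 1 - n) sqW =
        fun y => sqW y + (Fintype.card J : ℝ) * (π (K + 1) - π (K + 1 - n)) := by
    intro n
    induction n with
    | zero =>
      intro _
      rw [Nat.sub_zero, u_top (show N.K ≤ K + 1 from le_rfl), down_top (show N.K ≤ K + 1 from le_rfl)]
      refine ⟨⟨fun _ x => Real.log (Real.cosh x), 0, fun _ => lip1_logCosh, ?_⟩, by simp⟩
      rw [quadU_zero]
      simp only [U, tauLog_zero, zero_add]
    | succ n ih =>
      intro hn
      obtain ⟨⟨g, c, hg, hu⟩, hd⟩ := ih (by omega)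
      obtain ⟨l, hl, hl'⟩ : ∃ l, K + 1 - (n + 1) = l ∧ K + 1 - n = l + 1 :=
        ⟨_, rfl, by omega⟩
      rw [hl'] at hu hd
      have hlK : l < N.K := by show l < K + 1; omega
      rw [hl]
      refine ⟨?_, ?_⟩
      · have hs := stepLog_quadU t (fun _ => 0) (fun _ => 0) (fun _ => le_rfl) g hg c (hx l)
          (sub_nonneg.2 (hπ.1 l.le_succ)) (e (l + 1))
        simp only [zero_div] at hs
        rw [u_succ hlK, hu, hamp, hs]
        exact ⟨_, _, fun i => (hg i).gaussStep (hx l) _, rfl⟩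
      · rw [down_succ hlK, hd, Nest.avg, hu, hamp]
        funext y
        rw [tilt_sqW t hg c _ (hx l) (sub_nonneg.2 (hπ.1 l.le_succ))]
        ring
  have h := (key (K + 1) le_rfl).2
  rwa [Nat.sub_self] at h

end QuadC

open QuadC in
/-- The cut-off does not matter, uniformly in the levels. -/
theorem tauFree_cut {J : Type} [Fintype J] {k : ℕ} (E Bc : J → ℝ) (hE : ∀ j, 0 < E j)
    (t : J → Fin k) {m H ε : ℝ} (hm : 0 < m) (hε : 0 < ε) :
    ∃ R₀, ∀ R, R₀ ≤ R → ∀ K L0 : ℕ, L0 < K → m * ((K : ℝ) + 1) ≤ (L0 : ℝ) + 1 →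
      ∀ π : ℕ → ℝ, IsPath π → (∀ l ≤ L0, π l = π 0) → π (K + 1) ≤ H →
      ∀ e : ℕ → Fin k → ℝ, (∀ l, 1 ≤ l → l ≤ L0 → e l = 0) →
        |tauFree K π e t (fun j => quadCut R (E j) (Bc j)) -
          tauFree K π e t (fun j => quadPsi (E j) (Bc j))| ≤ ε := by
  classical
  set m' := min m 1
  have hm' : 0 < m' := lt_min hm one_pos
  set κ : J → ℝ := fun j => |Bc j| + E j + Bc j ^ 2 / (2 * E j) with hκd
  have hκ : ∀ j, 0 ≤ κ j := fun j => by have := hE j; positivity
  set S := (Fintype.card J : ℝ)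
  set C := S * ∑ j, κ j
  have hC : 0 ≤ C := mul_nonneg (Nat.cast_nonneg _) (sum_nonneg fun j _ => hκ j)
  set Φ := ∫ z, (H * ((∑ j, z (Sum.inl j) ^ 2) + S)) ^ 2 ∂gauss (J ⊕ Fin k)
  have hΦ : 0 ≤ Φ := integral_nonneg fun z => sq_nonneg _
  set Lc := 1 + 18 * C * Φ / ε
  have hLc : 1 ≤ Lc := le_add_of_nonneg_right (by positivity)
  -- the radius
  obtain ⟨ρ, hρ1, hρ⟩ : ∃ ρ : ℝ, 1 ≤ ρ ∧
      Real.exp (C * (2 + Lc)) / m' * ((Lc + 1) / ρ ^ 2) ^ m' ≤ ε / 3 := by
    set A := Real.exp (C * (2 + Lc)) / m'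
    have hA : 0 < A := by positivity
    set s := (ε / 3 / A) ^ m'⁻¹
    have hs : 0 < s := by positivity
    refine ⟨1 + Real.sqrt ((Lc + 1) / s), le_add_of_nonneg_right (Real.sqrt_nonneg _), ?_⟩
    have hq : (Lc + 1) / s ≤ (1 + Real.sqrt ((Lc + 1) / s)) ^ 2 := by
      nlinarith [Real.sqrt_nonneg ((Lc + 1) / s), Real.sq_sqrt (show 0 ≤ (Lc + 1) / s by positivity)]
    have h1 : (Lc + 1) / (1 + Real.sqrt ((Lc + 1) / s)) ^ 2 ≤ s := by
      rw [div_le_iff₀ (by positivity)]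
      rwa [div_le_iff₀' hs] at hq
    refine (mul_le_mul_of_nonneg_left (Real.rpow_le_rpow (by positivity) h1 hm'.le) hA.le).trans
      (le_of_eq ?_)
    rw [← Real.rpow_mul (by positivity), inv_mul_cancel₀ hm'.ne', Real.rpow_one,
      mul_div_cancel₀ _ hA.ne']
  set G := ∑ j, (|Bc j| + E j * ρ) * ρ ^ 3
  have hG : 0 ≤ G := sum_nonneg fun j _ => by have := hE j; positivity
  refine ⟨1 + 3 * S * G / ε, fun R hR K L0 hL hmL π hπ hcst hH e he => ?_⟩
  have hR1 : 1 ≤ R := le_trans (le_add_of_nonneg_right (by positivity)) hR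
  have hR0 : 0 < R := by linarith
  set N := tauNest (J := J) K π e with hN
  set U₀ := tauLog t fun (_ : J) (_ : ℝ) => (0:ℝ)
  set A := tauLog t fun j => quadCut R (E j) (Bc j)
  set B := tauLog t fun j => quadPsi (E j) (Bc j)
  have hcut_u : ∀ j x, quadCut R (E j) (Bc j) x ≤ κ j := fun j x =>
    (quadPsi_upper (hE j) _ _).trans (le_add_of_nonneg_left (by have := hE j; positivity))
  have hquad_u : ∀ j x, quadPsi (E j) (Bc j) x ≤ κ j := fun j x =>
    (quadPsi_upper (hE j) _ _).trans (le_add_of_nonneg_left (by have := hE j; positivity))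
  have hle : ∀ j (x : ℝ), (|Bc j| + E j) * (1 + x ^ 2) ≤ κ j * (1 + x ^ 2) := fun j x =>
    mul_le_mul_of_nonneg_right (le_add_of_nonneg_right (by have := hE j; positivity)) (by positivity)
  have hcut_l : ∀ j x, -(κ j * (1 + x ^ 2)) ≤ quadCut R (E j) (Bc j) x := fun j x =>
    (neg_le_neg (hle j x)).trans (quadPsi_lower (hE j) _ (cutArg_bounds hR0 x).2.1)
  have hquad_l : ∀ j x, -(κ j * (1 + x ^ 2)) ≤ quadPsi (E j) (Bc j) x := fun j x =>
    (neg_le_neg (hle j x)).trans (quadPsi_lower (hE j) _ le_rfl)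
  have htc : Continuous Real.tanh :=
    continuous_iff_continuousAt.2 fun x => (hasDerivAt_tanh' x).continuousAt
  have hAs : Semi A := semi_tauLog t hκ (fun j => by unfold quadCut quadPsi; fun_prop) hcut_u hcut_l
  have hBs : Semi B := semi_tauLog t hκ (fun j => by unfold quadPsi; fun_prop) hquad_u hquad_l
  have hW : Tame (sqW : (J ⊕ Fin k → ℝ) → ℝ) := tame_sum _ fun j _ => (tame_coord (Sum.inl j)).sq
  have hclose : ∀ y, sqW y ≤ ρ ^ 2 → |A y - B y| ≤ ε / 3 := by
    intro y hy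
    have hδ : ∀ j, ∀ s : ℝ, s ^ 2 = 1 → |quadCut R (E j) (Bc j) (s * y (Sum.inl j)) -
        quadPsi (E j) (Bc j) (s * y (Sum.inl j))| ≤ G / R := by
      intro j s hs
      set x := s * y (Sum.inl j)
      obtain ⟨-, h2, h3⟩ := cutArg_bounds hR0 x
      have hx : |x| ≤ ρ := by
        rw [← Real.sqrt_sq (show 0 ≤ ρ by linarith), ← Real.sqrt_sq_eq_abs]
        refine Real.sqrt_le_sqrt ?_
        rw [show x ^ 2 = y (Sum.inl j) ^ 2 by rw [mul_pow, hs, one_mul]]
        exact (single_le_sum (f := fun i => y (Sum.inl i) ^ 2) (fun i _ => sq_nonneg _)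
          (mem_univ j)).trans hy
      show |quadPsi (E j) (Bc j) (cutArg R x) - quadPsi (E j) (Bc j) x| ≤ _
      rw [show quadPsi (E j) (Bc j) (cutArg R x) - quadPsi (E j) (Bc j) x =
        (Bc j - E j * (cutArg R x + x) / 2) * (cutArg R x - x) by simp only [quadPsi]; ring, abs_mul]
      have h4 : |Bc j - E j * (cutArg R x + x) / 2| ≤ |Bc j| + E j * ρ := by
        refine (abs_sub _ _).trans (add_le_add le_rfl ?_)
        rw [abs_div, abs_mul, abs_of_pos (hE j), abs_two, mul_div_assoc]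
        refine mul_le_mul_of_nonneg_left ?_ (hE j).le
        linarith [abs_add_le (cutArg R x) x]
      have h5 : |cutArg R x - x| ≤ ρ ^ 3 / R := by
        refine h3.trans (div_le_div₀ (by positivity) (pow_le_pow_left₀ (abs_nonneg x) hx 3) hR0 ?_)
        nlinarith
      calc _ ≤ (|Bc j| + E j * ρ) * (ρ ^ 3 / R) :=
            mul_le_mul h4 h5 (abs_nonneg _) (by have := hE j; positivity)
        _ = (|Bc j| + E j * ρ) * ρ ^ 3 / R := by ring
        _ ≤ G / R := div_le_div_of_nonneg_right (single_le_sum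
            (f := fun i => (|Bc i| + E i * ρ) * ρ ^ 3)
            (fun i _ => by have := hE i; positivity) (mem_univ j)) hR0.le
    have hS : S * (G / R) ≤ ε / 3 := by
      rw [← mul_div_assoc, div_le_iff₀ hR0]
      have hR' : 3 * S * G / ε ≤ R := by linarith
      rw [div_le_iff₀ hε] at hR'
      linarith
    have h1 := tauLog_le t (ψ := fun j => quadCut R (E j) (Bc j))
      (φ := fun j => quadPsi (E j) (Bc j)) y fun j s hs =>
        sub_le_iff_le_add'.1 (abs_le.1 (hδ j s hs)).2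
    have h2 := tauLog_le t (φ := fun j => quadCut R (E j) (Bc j))
      (ψ := fun j => quadPsi (E j) (Bc j)) (δ := G / R) y fun j s hs => by
        linarith [(abs_le.1 (hδ j s hs)).1]
    rw [abs_le]
    constructor <;> linarith [h1, h2, hS]
  have hfar : ∀ y (X Y : ℝ), X ≤ U₀ y + C → (sqW y ≤ ρ ^ 2 → X ≤ Y + ε / 3) →
      Real.exp X ≤ Real.exp (Y + ε / 3) + Real.exp (U₀ y + C) * ((1 + sqW y) / ρ ^ 2) := by
    intro y X Y hX hXY
    have hW0 : 0 ≤ sqW y := sum_nonneg fun j _ => sq_nonneg _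
    rcases le_or_gt (sqW y) (ρ ^ 2) with h | h
    · exact (Real.exp_le_exp.2 (hXY h)).trans (le_add_of_nonneg_right (by positivity))
    · refine le_trans ?_ (le_add_of_nonneg_left (Real.exp_pos _).le)
      refine (Real.exp_le_exp.2 hX).trans (le_mul_of_one_le_right (Real.exp_pos _).le ?_)
      rw [le_div_iff₀ (by positivity), one_mul]
      linarith
  have hsupp : ∀ l, 1 ≤ l → l ≤ N.K → (∃ i, N.amp l i ≠ 0) → m' ≤ N.x l := by
    rintro l h1 - ⟨i, hi⟩
    have hlL : L0 < l := by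
      by_contra hlt
      push Not at hlt
      apply hi
      rcases i with j | i <;> simp only [hN, tauNest, Sum.elim_inl, Sum.elim_inr]
      · rw [if_neg (by omega), hcst l hlt, hcst (l - 1) (by omega), sub_self, Real.sqrt_zero]
      · rw [he l h1 hlt]; rfl
    refine le_min (min_le_right _ _) ((min_le_left _ _).trans ?_)
    rw [lvl, le_div_iff₀ (by positivity)]
    exact hmL.trans (by exact_mod_cast hlL)
  have hbA := fun y => tauLog_bounds t hκ (ψ := fun j => quadCut R (E j) (Bc j)) hcut_u hcut_l y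
  have hbB := fun y => tauLog_bounds t hκ (ψ := fun j => quadPsi (E j) (Bc j)) hquad_u hquad_l y
  have hmain := root_trunc (Nn := N) (QuadC.tauNest_good K π e) hm' (min_le_right _ _) hsupp
    (U₀ := U₀) (A := A) (B := B) (W := sqW) (linGrowth_tauZero t) hAs hBs hW
    (fun y => sum_nonneg fun j _ => sq_nonneg _) (C := C) (e := ε / 3) (R := ρ) (Lc := Lc) hC
    (by positivity) (by linarith) hLc (fun y => (hbA y).1) (fun y => (hbB y).1)
    (fun y => (hbA y).2) (fun y => (hbB y).2)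
    (fun y => hfar y _ _ (hbA y).1 fun h => by linarith [(abs_le.1 (hclose y h)).2])
    (fun y => hfar y _ _ (hbB y).1 fun h => by linarith [(abs_le.1 (hclose y h)).1])
  show |N.root A - N.root B| ≤ ε
  refine hmain.trans ?_
  have hmean : N.mean U₀ 0 (fun y => N.down U₀ 0 sqW y ^ 2) ≤ Φ := by
    rw [down_sqW t K hπ e]
    have hπ0 : π 0 ≤ H := (hπ.1 (Nat.zero_le _)).trans hH
    have hd : π (K + 1) - π 0 ≤ H := by linarith [hπ.2]
    have hd0 : 0 ≤ π (K + 1) - π 0 := sub_nonneg.2 (hπ.1 (Nat.zero_le _))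
    simp only [Nest.mean]
    refine integral_mono_of_nonneg (.of_forall fun z => sq_nonneg _)
      (((tame_sum _ fun j _ => (tame_coord (Sum.inl j)).sq).add (tame_const S)).const_mul H).sq.integrable
      (.of_forall fun z => ?_)
    simp only [sqW, hN, tauNest, if_true, Sum.elim_inl, mul_pow, Real.sq_sqrt hπ.2, ← mul_sum]
    have hz : 0 ≤ ∑ j, z (Sum.inl j) ^ 2 := sum_nonneg fun j _ => sq_nonneg _
    rw [← mul_pow]
    refine pow_le_pow_left₀ (add_nonneg (mul_nonneg hπ.2 hz) (mul_nonneg (Nat.cast_nonneg _) hd0)) ?_ 2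
    rw [mul_add, mul_comm H S]
    exact add_le_add (mul_le_mul_of_nonneg_right hπ0 hz)
      (mul_le_mul_of_nonneg_left hd (Nat.cast_nonneg _))
  have hLc0 : 0 < Lc := lt_of_lt_of_le one_pos hLc
  have hlast : 6 * C / Lc * N.mean U₀ 0 (fun y => N.down U₀ 0 sqW y ^ 2) ≤ ε / 3 := by
    refine (mul_le_mul_of_nonneg_left hmean (by positivity)).trans ?_
    rw [div_mul_eq_mul_div, div_le_iff₀ hLc0, mul_add, mul_one, ← mul_div_assoc,
      show ε / 3 * (18 * C * Φ) / ε = 6 * C * Φ by field_simp; ring]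
    linarith
  linarith

end Vale.Agent.P166.Parisi
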