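import Vale.Agent.P166.Parisi.QuadCascade.Path

/-!
The exact increment: along an exact solution the two quadratic cascades give a spin in a field,
the pairing of the field with the path, and the energy.
-/

namespace Vale.Agent.P166.Parisi

open MeasureTheory Finset
open Vale.Agent.P157.Parisi (lvl IsPath gridX isingField cascade descend gaussStep)

variable {M : ℕ} [NeZero M] {a : Fin M → ℝ}

namespace QuadC

/-- `chiPath_integral` in terms of the eigenvalues of the path. -/
lemma integral_chiPath {K : ℕ} {q : ℕ → ℝ} (hq : IsPath q) (h1 : q K ≤ 1) {Φ φ : ℝ → ℝ}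
    (hΦ : ∀ χ, 0 ≤ χ → HasDerivWithinAt Φ (φ χ) (Set.Ici 0) χ)
    (hφ : ContinuousOn φ (Set.Ici 0)) :
    ∫ s in (0:ℝ)..1, φ (chiPath K q s) = φ (eigPath K q 0) * q 0 + (Φ (eigPath K q K) - Φ 0) +
      ∑ j ∈ range K, (Φ (eigPath K q j) - Φ (eigPath K q (j + 1))) / lvl K (j + 1) := by
  rw [chiPath_integral hq h1 hΦ hφ, eigPath_line K q K.zero_le, eigPath_line K q le_rfl]
  congr 1
  refine Finset.sum_congr rfl fun j hj => ?_
  have hj' := mem_range.1 hj
  rw [eigPath_line K q hj'.le, eigPath_line K q hj']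

lemma chiPath_pos_of {K : ℕ} {q : ℕ → ℝ} (hq : IsPath q) (h1 : q K ≤ 1) (h0 : q 0 < 1) {s : ℝ}
    (hs : s < 1) : 0 < chiPath K q s := by
  rw [chiPath, Finset.lt_inf'_iff]
  intro l hl
  have hl' : l ≤ K + 1 := Nat.lt_succ_iff.1 (mem_range.1 hl)
  rcases l.eq_zero_or_pos with rfl | hpos
  · have hK : (0:ℝ) < (K : ℝ) + 1 := by positivity
    have hlt : ∑ m ∈ range (K + 1), q m < ∑ _m ∈ range (K + 1), (1:ℝ) :=
      Finset.sum_lt_sum (fun m hm => (path_le hq h1 (Nat.lt_succ_iff.1 (mem_range.1 hm))).2)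
        ⟨0, by simp, h0⟩
    simp only [lvl, qTail, Nat.cast_zero, zero_div, zero_mul, sub_zero, sub_pos,
      Nat.Ico_zero_eq_range]
    rw [div_lt_one hK]
    simpa using hlt
  · obtain ⟨-, x1⟩ := lvl_mem hl'
    have x0 : 0 < lvl K l := div_pos (by exact_mod_cast hpos) (by positivity)
    have h := (qTail_le hq hl').2
    nlinarith [mul_pos x0 (sub_pos.2 hs), mul_nonneg (sub_nonneg.2 x1) (sub_nonneg.2 h1)]

lemma continuousOn_resp (cp : Compress a) : ContinuousOn (resp cp) (Set.Ici 0) :=
  fun _ hc => (hasDerivAt_resp cp hc).continuousAt.continuousWithinAt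

/-- The energy along the top path. -/
lemma energy_eq (cp : Compress a) (ha : Monotone a) {K : ℕ} {q : ℕ → ℝ} (hq : IsPath q)
    (h1 : q K ≤ 1) (h0 : q 0 < 1) :
    let c := topC a ha K q
    let G := fun c => chi a c * resp cp c - prim cp c
    2 * energy (evenLaw a) 1 K q = 2 * cp.c0 + resp cp (c 0) * q 0 + G (c K) +
      ∑ j ∈ range K, (G (c j) - G (c (j + 1))) / lvl K (j + 1) := by
  intro c G
  set A := evenAtoms a ha with hA
  set φ := fun χ => resp cp (A.topOf χ) with hφ
  have hφc : ContinuousOn φ (Set.Ici 0) :=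
    (continuousOn_resp cp).comp A.continuousOn_topOf fun χ _ => A.topOf_nonneg χ
  have hΦ : ∀ χ, 0 ≤ χ → HasDerivWithinAt (fun χ => G (A.topOf χ)) (φ χ) (Set.Ici 0) χ := by
    intro χ hχ
    have hc := A.topOf_nonneg χ
    have hG : HasDerivAt G (psi a (A.topOf χ) * resp cp (A.topOf χ)) (A.topOf χ) :=
      (((hasDerivAt_chi ha hc).mul (hasDerivAt_resp cp hc)).sub
        (hasDerivAt_prim cp ha hc)).congr_deriv (by rw [← chi_dresp cp ha hc]; ring)
    refine (hG.comp_hasDerivWithinAt χ (A.hasDerivWithinAt_topOf hχ)).congr_deriv ?_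
    rw [hA, gain_eq, mul_comm (psi a _), mul_assoc,
      mul_inv_cancel₀ (psi_pos ha ((evenAtoms a ha).topOf_nonneg χ)).ne', mul_one]
  have hR : ∀ s, 0 ≤ s → s < 1 →
      rTrans (evenLaw a) (1 * chiPath K q s) = 2 * cp.c0 + φ (chiPath K q s) := by
    intro s hs0 hs
    have hpos := chiPath_pos_of hq h1 h0 hs
    obtain ⟨hc0, hc1⟩ := chiOf_topOf A hpos.le
    rw [chiOf_eq ha] at hc1
    have hne : A.topOf (chiPath K q s) ≠ 0 := by
      intro h; rw [h, chi, zero_mul] at hc1; linarith
    have h := omegaInv_atoms A hpos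
    rw [one_mul, rTrans, show evenLaw a = A.law from rfl, h, show A.lam A.top = a (topA M) from rfl,
      (coords cp).1, mean_eq]
    have h2 := chi_resp cp ha hc0
    rw [hc1] at h2
    have hchi : chiPath K q s = A.topOf (chiPath K q s) * phi a (A.topOf (chiPath K q s)) :=
      hc1.symm
    have hphi := (phi_pos ha hc0).ne'
    simp only [hφ]
    generalize A.topOf (chiPath K q s) = z at hne h2 hchi hphi
    rw [hchi] at h2 ⊢
    field_simp
    linear_combination -h2
  have hI : ∫ s in (0:ℝ)..1, rTrans (evenLaw a) (1 * chiPath K q s) =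
      ∫ s in (0:ℝ)..1, (2 * cp.c0 + φ (chiPath K q s)) := by
    refine intervalIntegral.integral_congr_ae ?_
    have : ∀ᵐ s : ℝ ∂volume, s ≠ 1 := by simp [ae_iff]
    filter_upwards [this] with s hs hmem
    rw [Set.uIoc_of_le zero_le_one] at hmem
    exact hR s hmem.1.le (lt_of_le_of_ne hmem.2 hs)
  have hint : IntervalIntegrable (fun s => φ (chiPath K q s)) volume 0 1 :=
    (hφc.comp (chiPath_continuous K q).continuousOn fun s hs =>
      (chiPath_mem hq h1 hs).1).intervalIntegrable_of_Icc zero_le_one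
  rw [energy, hI, intervalIntegral.integral_add intervalIntegrable_const hint,
    intervalIntegral.integral_const, integral_chiPath hq h1 hΦ hφc]
  have hG0 : G (A.topOf 0) = 0 := by simp [G, A.topOf_zero, resp_zero, prim_zero]
  simp only [hG0, smul_eq_mul, hφ]
  show 2 * (1 / 2 * ((1 - 0) * (2 * cp.c0) + (resp cp (c 0) * q 0 + (G (c K) - 0) +
    ∑ j ∈ range K, (G (c j) - G (c (j + 1))) / lvl K (j + 1)))) = _
  ring

/-- The field produced by the compressed coordinates. -/
noncomputable def hInc (cp : Compress a) (ha : Monotone a) (K : ℕ) (q : ℕ → ℝ) (l : ℕ) : ℝ :=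
  q 0 / psi a (topC a ha K q 0) * dresp cp (topC a ha K q 0) + ∑ j ∈ range (min l K),
    (resp cp (topC a ha K q j) - resp cp (topC a ha K q (j + 1))) / lvl K (j + 1)

lemma hterm_topPath (cp : Compress a) (ha : Monotone a) {K : ℕ} (q : ℕ → ℝ) (l : ℕ) :
    ∑ j, hterm K (topPath a ha K q) (cp.e j) (cp.b j) (min l K) = hInc cp ha K q l := by
  simp only [hterm, hInc, sum_add_distrib]
  congr 1
  · rw [csum_topPath ha q K.zero_le, topPath_le ha K q K.zero_le, range_zero, sum_empty, add_zero,
      dresp, mul_sum]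
    exact sum_congr rfl fun j _ => by ring
  · rw [sum_comm]
    refine sum_congr rfl fun n hn => ?_
    have hn' : n < K := lt_of_lt_of_le (mem_range.1 hn) (min_le_right _ _)
    rw [csum_topPath ha q hn'.le, csum_topPath ha q hn', topPath_incr ha q hn',
      resp_sub cp (topC_nonneg ha K q _) (topC_nonneg ha K q _), mul_sum, sum_div]
    refine sum_congr rfl fun j _ => ?_
    ring

/-- The summation by parts along the path. -/
lemma inc_identity (cp : Compress a) (ha : Monotone a) {K : ℕ} {q : ℕ → ℝ} (hq : IsPath q)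
    (h1 : q K ≤ 1) :
    let c := topC a ha K q
    let F := fun c => chi a c * resp cp c
    hInc cp ha K q K + resp cp (c K) = q 0 / psi a (c 0) * dprim cp (c 0) + resp cp (c 0) * q 0 +
      F (c K) + (∑ j ∈ range K, (F (c j) - F (c (j + 1))) / lvl K (j + 1)) +
      (∑ l ∈ range (K + 1), hInc cp ha K q l * q l) / ((K : ℝ) + 1) := by
  intro c F
  have hinv : ∀ n ≤ K, q 0 / psi a (c 0) * dprim cp (c 0) + resp cp (c 0) * q 0 +
      (∑ j ∈ range n, (F (c j) - F (c (j + 1))) / lvl K (j + 1)) +
      (∑ l ∈ range (n + 1), hInc cp ha K q l * q l) / ((K : ℝ) + 1) =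
      hInc cp ha K q n * (eigPath K q n + lvl K (n + 1) * q n) + q n * resp cp (c n) := by
    intro n
    induction n with
    | zero =>
      intro _
      rw [← chi_dresp cp ha (topC_nonneg ha K q 0)]
      simp only [c, chi_topC ha hq h1 K.zero_le, hInc, Nat.zero_min, range_zero, sum_empty,
        add_zero, zero_add, range_one, sum_singleton, lvl, Nat.cast_one]
      ring
    | succ n ih =>
      intro hn
      have e := eigPath_step K q (show n < K by omega)
      have h1' : hInc cp ha K q (n + 1) = hInc cp ha K q n +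
          (resp cp (c n) - resp cp (c (n + 1))) / lvl K (n + 1) := by
        simp only [hInc, c, min_eq_left hn, min_eq_left (show n ≤ K by omega), sum_range_succ]
        ring
      have hx : lvl K (n + 1 + 1) = lvl K (n + 1) + 1 / ((K : ℝ) + 1) := by
        simp only [lvl]; push_cast; ring
      rw [sum_range_succ _ n, sum_range_succ _ (n + 1), add_div, hx]
      have hIH := ih (by omega)
      set x := lvl K (n + 1)
      set d := (resp cp (c n) - resp cp (c (n + 1))) / x
      have hd : d * x = resp cp (c n) - resp cp (c (n + 1)) := div_mul_cancel₀ _ (lvl_pos K n).ne'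
      have eF : (F (c n) - F (c (n + 1))) / x =
          eigPath K q (n + 1) * d + (q (n + 1) - q n) * resp cp (c n) := by
        rw [div_eq_iff (lvl_pos K n).ne']
        simp only [F, c, chi_topC ha hq h1 hn, chi_topC ha hq h1 (show n ≤ K by omega)]
        rw [e]
        simp only [c] at hd
        linear_combination -eigPath K q (n + 1) * hd
      rw [e] at hIH
      rw [h1'] at *
      linear_combination hIH + eF - q (n + 1) * hd
  have h := hinv K le_rfl
  have hK := eigPath_top K q
  rw [lvl_top, one_mul, hK, sub_add_cancel, mul_one] at h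
  have hFK : F (c K) = (1 - q K) * resp cp (c K) := by
    simp only [F, c, chi_topC ha hq h1 le_rfl, hK]
  rw [hFK]
  linarith

lemma descend_zero_path {u : ℝ → ℝ} (K : ℕ) :
    ∀ d ≤ K, descend K (fun _ => (0:ℝ)) u d = u := by
  intro d
  induction d with
  | zero => exact fun _ => rfl
  | succ n ih =>
    intro hn
    funext y
    obtain ⟨l, hl⟩ : ∃ l, K - n = l + 1 := ⟨K - n - 1, by omega⟩
    rw [descend, ih (by omega), gaussStep, hl]
    simp [inv_mul_cancel_left₀ (lvl_pos K l).ne']

lemma isingField_zero (K : ℕ) : isingField K (fun _ => (0:ℝ)) = 0 := by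
  rw [isingField, cascade, descend_zero_path K K le_rfl]
  simp

end QuadC

open QuadC

theorem quad_increment {a : Fin M → ℝ} (ha : StrictMono a) (cp : Compress a) :
    ∃ H : ℝ, ∀ (K : ℕ) (q : ℕ → ℝ), IsPath q → q K ≤ 1 → q 0 < 1 →
      ∃ h : ℕ → ℝ, IsPath h ∧ h K ≤ H ∧ (∀ L0 ≤ K, (∀ l ≤ L0, q l = q 0) → ∀ l ≤ L0, h l = h 0) ∧
        ∀ e : ℕ → Fin M → ℝ,
          (M : ℝ) * cp.c0 +
            tauFree K (topPath a ha.monotone K q) e (fun j : NewIdx M => j.1)
              (fun j => quadPsi (cp.e j.2) (cp.b j.2)) -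
            tauFree (m := 1) K (topPath a ha.monotone K q) (fun _ _ => 0) (fun _ : MoveIdx M => 0)
              (fun j => quadPsi (a (topA M) - a j.1) 0) =
          ∑ i, (isingField K (fun l => h (min l K) + cumVar K (fun n => e n i) l) +
            (∑ l ∈ range (K + 1), h l * q l) / (2 * ((K : ℝ) + 1)) +
            energy (evenLaw a) 1 K q + (∑ n ∈ range (K + 2), e n i ^ 2) / 2) := by
  refine ⟨(M : ℝ) * ∑ j, cp.b j ^ 2, fun K q hq h1 h0 => ?_⟩
  have hmono := ha.monotone
  set c := topC a hmono K q with hc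
  set π := topPath a hmono K q with hπ
  set h := hInc cp hmono K q with hh
  have hc0 : ∀ l, 0 ≤ c l := topC_nonneg hmono K q
  have hπp : IsPath π := isPath_topPath hmono hq h1
  have hhK : ∀ l, h l = h (min l K) := fun l => by simp [hh, hInc]
  refine ⟨h, ⟨monotone_nat_of_le_succ fun l => ?_, ?_⟩, ?_, fun L0 hL hcst l hl => ?_, fun e => ?_⟩
  · rcases lt_or_ge l K with hl | hl
    · simp only [hh, hInc, min_eq_left hl.le, min_eq_left (show l + 1 ≤ K from hl), sum_range_succ]
      have := div_nonneg (sub_nonneg.2 (resp_mono cp (hc0 (l + 1)) (topC_anti hmono hq h1 hl)))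
        (lvl_pos K l).le
      linarith
    · rw [hhK l, hhK (l + 1), min_eq_right hl, min_eq_right (by omega : K ≤ l + 1)]
  · simp only [hh, hInc, Nat.zero_min, range_zero, sum_empty, add_zero]
    exact mul_nonneg (div_nonneg hq.2 (psi_pos hmono (hc0 0)).le)
      (sum_nonneg fun j _ => div_nonneg (sq_nonneg _) (sq_nonneg _))
  · have hb : h K ≤ π K * ∑ j, cp.b j ^ 2 := by
      rw [hh, ← hterm_topPath cp hmono q K, min_self, mul_sum]
      refine sum_le_sum fun j _ => ?_
      have hd : ∀ n, 1 ≤ 1 + cp.e j * csum K π n := fun n =>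
        le_add_of_nonneg_right (mul_nonneg (cp.pos j).le (csum_nonneg hπp n))
      have hb0 := sq_nonneg (cp.b j)
      calc hterm K π (cp.e j) (cp.b j) K
          ≤ cp.b j ^ 2 * π 0 + ∑ n ∈ range K, cp.b j ^ 2 * (π (n + 1) - π n) := by
            refine add_le_add (div_le_self (mul_nonneg hb0 hπp.2) (one_le_pow₀ (hd 0)))
              (sum_le_sum fun n _ => div_le_self (mul_nonneg hb0 (sub_nonneg.2 (hπp.1 n.le_succ)))
                (one_le_mul_of_one_le_of_one_le (hd _) (hd _)))
        _ = π K * cp.b j ^ 2 := by rw [← mul_sum, sum_range_sub π]; ring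
    refine hb.trans (mul_le_mul_of_nonneg_right ?_ (sum_nonneg fun j _ => sq_nonneg _))
    exact (hπp.1 K.le_succ).trans (topPath_path hmono K hq h1).2.1
  · simp only [hh, hInc, Nat.zero_min, range_zero, sum_empty, add_zero, add_eq_left]
    refine sum_eq_zero fun j hj => ?_
    have hj' := (mem_range.1 hj).trans_le (min_le_left _ _)
    simp only [topC, eigPath_const q hL hcst j (by omega), eigPath_const q hL hcst (j + 1) (by omega),
      sub_self, zero_div]
  -- the two cascades
  have hgap : ∀ r, 0 ≤ gap a r := gap_nonneg hmono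
  rw [tauFree_quad K hπp (fun j : NewIdx M => cp.e j.2) (fun j => cp.b j.2)
      (fun j => (cp.pos _).le) _ e,
    tauFree_quad (k := 1) K hπp (fun j : MoveIdx M => a (topA M) - a j.1) (fun _ => 0)
      (fun j => hgap _) _ (fun _ _ => 0)]
  have hnew : ∀ i, hPath K π (fun j : NewIdx M => cp.e j.2) (fun j => cp.b j.2) (fun j => j.1) e i =
      fun l => h (min l K) + cumVar K (fun n => e n i) l := fun i => by
    funext l
    rw [hPath, Fintype.sum_prod_type_right]
    simp only [sum_ite_eq', mem_univ, if_true, hπ, hterm_topPath cp hmono q l]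
    rw [← hh, ← hhK l]
  have hcK : csum K π K = c K := csum_topPath hmono q le_rfl
  have hw : ∀ i, wLev K π (fun j : NewIdx M => cp.e j.2) (fun j => cp.b j.2) (fun j => j.1) e i K =
      resp cp (c K) + e (K + 1) i ^ 2 := fun i => by
    rw [wLev, Fintype.sum_prod_type_right, resp]
    simp only [sum_ite_eq', mem_univ, if_true, csum_top, mul_zero, add_zero, one_mul, hcK,
      show π (K + 1) - π K = c K by rw [hπ, topPath_gt hmono K q K.lt_succ_self, hc]; ring]
  have hmove : ∀ i : Fin 1, hPath K π (fun j : MoveIdx M => a (topA M) - a j.1) (fun _ => 0)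
      (fun _ => 0) (fun _ _ => 0) i = fun _ => 0 := fun i => by
    funext l; simp [hPath, hterm, cumVar]
  have hmw : ∀ i : Fin 1, wLev K π (fun j : MoveIdx M => a (topA M) - a j.1) (fun _ => 0)
      (fun _ => 0) (fun _ _ => 0) i K = 0 := fun i => by simp [wLev]
  simp only [hnew, hw, hmove, hmw, isingField_zero, min_self, zero_div, add_zero, sum_const_zero]
  -- the constants
  have hM1 : ((M - 1 : ℕ) : ℝ) = (M : ℝ) - 1 := by
    rw [Nat.cast_sub (Nat.one_le_iff_ne_zero.2 (NeZero.ne M)), Nat.cast_one]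
  have hq1 : ∑ j : NewIdx M, qTerm K π (cp.e j.2) = (M : ℝ) * ∑ j, qTerm K π (cp.e j) := by
    rw [Fintype.sum_prod_type]; simp
  have hq2 : ∑ j : MoveIdx M, qTerm K π (a (topA M) - a j.1) =
      ((M : ℝ) - 1) * ∑ r, qTerm K π (gap a r) := by
    rw [Fintype.sum_prod_type]
    simp only [sum_const, card_univ, Fintype.card_fin, nsmul_eq_mul, ← mul_sum, hM1]
    congr 1
    have hz : qTerm K π (gap a (topA M)) = 0 := by simp [qTerm, gap_top]
    rw [← Finset.sum_subtype (univ.erase (topA M)) (fun r => by simp)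
      (fun r => qTerm K π (a (topA M) - a r)),
      ← Finset.sum_erase (f := fun r => qTerm K π (gap a r)) univ hz]
    rfl
  have hprim : ∑ j, qTerm K π (cp.e j) - ((M : ℝ) - 1) / M * ∑ r, qTerm K π (gap a r) =
      -(∑ l ∈ range (K + 1), (prim cp (csum K π l) - prim cp (csum K π (l + 1))) / lvl K (l + 1)) / 2
        - π 0 * dprim cp (csum K π 0) / 2 := by
    simp only [qTerm, prim, dprim, sum_sub_distrib, sum_neg_distrib, ← sum_div, neg_div]
    rw [sum_comm (s := univ) (t := range (K + 1)), sum_comm (s := univ) (t := range (K + 1))]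
    simp only [← sum_div, sum_sub_distrib, mul_div_assoc, ← mul_sum, sub_div]
    ring
  rw [hq1, hq2, show ∀ X Y : ℝ, (M : ℝ) * X + Y = Y + (M : ℝ) * X from fun X Y => add_comm _ _]
  have hp0 : π 0 = q 0 / psi a (c 0) := by
    rw [hπ, topPath_le hmono K q K.zero_le, range_zero, sum_empty, add_zero]
  have hsumP : ∑ l ∈ range (K + 1),
      (prim cp (csum K π l) - prim cp (csum K π (l + 1))) / lvl K (l + 1) =
      (∑ j ∈ range K, (prim cp (c j) - prim cp (c (j + 1))) / lvl K (j + 1)) + prim cp (c K) := by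
    rw [sum_range_succ, hcK, csum_top, prim_zero, sub_zero, lvl_top, div_one]
    congr 1
    refine sum_congr rfl fun j hj => ?_
    have hj' := mem_range.1 hj
    rw [csum_topPath hmono q hj'.le, csum_topPath hmono q hj']
  rw [hsumP, hp0, csum_topPath hmono q K.zero_le, ← hc] at hprim
  have hE := energy_eq cp hmono hq h1 h0
  have hI := inc_identity cp hmono hq h1
  simp only [← hc, ← hh] at hE hI hprim
  have hMne := (natM_pos (M := M)).ne'
  have hcum : ∀ i : Fin M, cumVar K (fun n => e n i) K + e (K + 1) i ^ 2 =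
      ∑ n ∈ range (K + 2), e n i ^ 2 := fun i => by
    rw [cumVar, min_self, sum_range_succ _ (K + 1)]
  simp only [← hcum, sum_add_distrib, ← sum_div, sum_const, card_univ, Fintype.card_fin,
    nsmul_eq_mul]
  set E1 := ∑ j, qTerm K π (cp.e j)
  set E2 := ∑ r, qTerm K π (gap a r)
  have h2 : (M : ℝ) * E1 - ((M : ℝ) - 1) * E2 = (M : ℝ) * (E1 - ((M : ℝ) - 1) / M * E2) := by
    field_simp
  rw [hprim] at h2
  set P := ∑ l ∈ range (K + 1), h l * q l
  simp only [sub_div, sum_sub_distrib, mul_comm (2 : ℝ) ((K : ℝ) + 1), ← div_div] at hE hI h2 ⊢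
  linear_combination h2 + (M : ℝ) / 2 * hI - (M : ℝ) / 2 * hE

end Vale.Agent.P166.Parisi
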