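import Vale.Agent.P166.Parisi.Sys
import Vale.Agent.P166.Parisi.Spec.Atoms

/-!
The diagonalisation of the energy of one new spin and the algebra of the compressed form: the
quadratic form `diag (gap)` written in the basis `(1/√M, H)` has the blocks `(mean gap, -b, diag e)`.
-/

namespace Vale.Agent.P166.Parisi

open Finset Matrix

variable {M : ℕ} [NeZero M] {a : Fin M → ℝ}

namespace QuadC

lemma natM_pos : (0:ℝ) < M := Nat.cast_pos.2 (Nat.pos_of_ne_zero (NeZero.ne M))

lemma sqrtM_pos : 0 < Real.sqrt (M:ℝ) := Real.sqrt_pos.2 natM_pos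

/-- Distance from the top atom. -/
def gap (a : Fin M → ℝ) (r : Fin M) : ℝ := a (topA M) - a r

lemma gap_nonneg (ha : Monotone a) (r : Fin M) : 0 ≤ gap a r :=
  sub_nonneg.2 (ha (Fin.le_iff_val_le_val.2 (Nat.le_sub_one_of_lt r.isLt)))

lemma gap_top : gap a (topA M) = 0 := sub_self _

lemma gap_pos (ha : StrictMono a) {r : Fin M} (hr : r ≠ topA M) : 0 < gap a r := by
  refine sub_pos.2 (ha (lt_of_le_of_ne ?_ hr))
  exact Fin.le_iff_val_le_val.2 (Nat.le_sub_one_of_lt r.isLt)

/-- The mean gap. -/
noncomputable def gBar (a : Fin M → ℝ) : ℝ := (∑ r, gap a r) / M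

lemma mean_eq (a : Fin M → ℝ) : (∑ r, a r) / M = a (topA M) - gBar a := by
  have := (natM_pos (M := M)).ne'
  rw [gBar]
  simp only [gap, Finset.sum_sub_distrib, Finset.sum_const, Finset.card_univ, Fintype.card_fin,
    nsmul_eq_mul]
  field_simp
  ring

/-- The mean of `1 / (1 + gap c)`. -/
noncomputable def phi (a : Fin M → ℝ) (c : ℝ) : ℝ := (∑ r, (1 + gap a r * c)⁻¹) / M

/-- The mean of `1 / (1 + gap c) ^ 2`. -/
noncomputable def psi (a : Fin M → ℝ) (c : ℝ) : ℝ := (∑ r, ((1 + gap a r * c) ^ 2)⁻¹) / M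

/-- Its derivative. -/
noncomputable def dphi (a : Fin M → ℝ) (c : ℝ) : ℝ :=
  (∑ r, -gap a r / (1 + gap a r * c) ^ 2) / M

lemma den_pos (ha : Monotone a) {c : ℝ} (hc : 0 ≤ c) (r : Fin M) : 0 < 1 + gap a r * c := by
  have := mul_nonneg (gap_nonneg ha r) hc; linarith

lemma phi_pos (ha : Monotone a) {c : ℝ} (hc : 0 ≤ c) : 0 < phi a c :=
  div_pos (Finset.sum_pos (fun r _ => inv_pos.2 (den_pos ha hc r)) ⟨topA M, mem_univ _⟩) natM_pos

lemma phi_zero : phi a 0 = 1 := by
  have := (natM_pos (M := M)).ne'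
  simp [phi, this]

lemma psi_ge (_ha : Monotone a) {c : ℝ} (_hc : 0 ≤ c) : 1 / (M:ℝ) ≤ psi a c := by
  refine div_le_div_of_nonneg_right (le_trans ?_ (Finset.single_le_sum
    (f := fun r => ((1 + gap a r * c) ^ 2)⁻¹) (fun r _ => inv_nonneg.2 (sq_nonneg _))
    (mem_univ (topA M)))) natM_pos.le
  simp [gap_top]

lemma psi_pos (ha : Monotone a) {c : ℝ} (hc : 0 ≤ c) : 0 < psi a c :=
  lt_of_lt_of_le (one_div_pos.2 natM_pos) (psi_ge ha hc)

lemma mul_sum_gap (ha : Monotone a) {c : ℝ} (hc : 0 ≤ c) :
    c * ((∑ r, gap a r / (1 + gap a r * c)) / M) = 1 - phi a c := by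
  have := (natM_pos (M := M)).ne'
  rw [phi, eq_sub_iff_add_eq, ← mul_div_assoc, Finset.mul_sum, ← add_div, ← Finset.sum_add_distrib,
    Finset.sum_congr rfl fun r _ => by
      rw [show c * (gap a r / (1 + gap a r * c)) + (1 + gap a r * c)⁻¹ = 1 by
        rw [mul_div_assoc', inv_eq_one_div, ← add_div, div_eq_one_iff_eq (den_pos ha hc r).ne']
        ring]]
  simp [this]

lemma psi_eq (ha : Monotone a) {c : ℝ} (hc : 0 ≤ c) : psi a c = phi a c + c * dphi a c := by
  rw [psi, phi, dphi, ← mul_div_assoc, ← add_div, Finset.mul_sum, ← Finset.sum_add_distrib]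
  congr 1
  refine Finset.sum_congr rfl fun r _ => ?_
  have := (den_pos ha hc r).ne'
  field_simp
  ring

variable (cp : Compress a)

/-- The basis matrix. -/
noncomputable def basisMat : Matrix (Fin M) (Unit ⊕ Fin (M - 1)) ℝ :=
  Matrix.of fun r => Sum.elim (fun _ => (Real.sqrt M)⁻¹) (cp.H r)

lemma basis_left : (basisMat cp)ᵀ * basisMat cp = 1 := by
  ext i k
  rw [Matrix.mul_apply]
  rcases i with _ | i <;> rcases k with _ | k
  · simp only [basisMat, transpose_apply, of_apply, Sum.elim_inl, Finset.sum_const,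
      Finset.card_univ, Fintype.card_fin, nsmul_eq_mul, one_apply_eq]
    rw [← mul_inv, Real.mul_self_sqrt natM_pos.le, mul_inv_cancel₀ natM_pos.ne']
  · simp [basisMat, ← Finset.mul_sum, cp.perp]
  · simp [basisMat, ← Finset.sum_mul, cp.perp]
  · simpa [basisMat, one_apply] using cp.orth i k

lemma basis_right : basisMat cp * (basisMat cp)ᵀ = 1 := by
  refine (Matrix.mul_eq_one_comm_of_equiv (Fintype.equivOfCardEq ?_)).1 (basis_left cp)
  simp [Nat.add_sub_cancel' (Nat.one_le_iff_ne_zero.2 (NeZero.ne M))]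

/-- Expansion in the basis. -/
lemma expand (v : Fin M → ℝ) (r : Fin M) :
    v r = (∑ s, v s) / M + ∑ j, (∑ s, cp.H s j * v s) * cp.H r j := by
  have h := congrFun (congrArg (fun A : Matrix (Fin M) (Fin M) ℝ => A *ᵥ v) (basis_right cp)) r
  simp only [one_mulVec, ← mulVec_mulVec] at h
  rw [← h]
  simp only [mulVec, dotProduct, basisMat, transpose_apply, of_apply, Fintype.sum_sum_type,
    Sum.elim_inl, Sum.elim_inr, Finset.univ_unique, Finset.sum_singleton]
  congr 1
  · rw [← Finset.mul_sum, ← mul_assoc, ← mul_inv, Real.mul_self_sqrt natM_pos.le]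
    ring
  · exact Finset.sum_congr rfl fun j _ => mul_comm _ _

/-- The coordinates of the compressed form: constant, cross and quadratic terms. -/
lemma coords : cp.c0 = (∑ r, a r) / M / 2 ∧
    (∀ j, ∑ r, gap a r * cp.H r j = -(Real.sqrt M * cp.b j)) ∧
    ∀ j k, ∑ r, gap a r * (cp.H r j * cp.H r k) = if j = k then cp.e j else 0 := by
  have hM := (sqrtM_pos (M := M)).ne'
  set T : (Fin (M - 1) → ℝ) → ℝ :=
    fun w => ∑ r, gap a r * (1 / Real.sqrt M + ∑ j, cp.H r j * w j) ^ 2 with hT
  have hid : ∀ w, -(T w) / 2 + a (topA M) / 2 = cp.c0 + ∑ j, quadPsi (cp.e j) (cp.b j) (w j) := by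
    intro w
    have h := cp.ident 1 (by norm_num) w
    simp only [one_mul] at h
    rw [← h, hT, ← Finset.sum_neg_distrib]
    simp only [gap, ← neg_mul, neg_sub]
  have h0 : cp.c0 = (∑ r, a r) / M / 2 := by
    have := hid 0
    simp only [hT, Pi.zero_apply, mul_zero, Finset.sum_const_zero, add_zero, quadPsi,
      one_div, inv_pow, Real.sq_sqrt natM_pos.le, ← Finset.sum_mul] at this
    rw [mean_eq, gBar]
    simp only [mul_zero, zero_pow two_ne_zero, zero_div, sub_zero, Finset.sum_const_zero,
      add_zero] at this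
    rw [← this]
    ring
  have hsum : ∀ (w : Fin (M - 1) → ℝ), T w = ∑ r, gap a r / M
      + 2 / Real.sqrt M * ∑ j, w j * ∑ r, gap a r * cp.H r j
      + ∑ j, ∑ k, w j * w k * ∑ r, gap a r * (cp.H r j * cp.H r k) := by
    intro w
    have e : ∀ r, gap a r * (1 / Real.sqrt M + ∑ j, cp.H r j * w j) ^ 2
        = gap a r / M + 2 / Real.sqrt M * ∑ j, w j * (gap a r * cp.H r j)
          + ∑ j, ∑ k, w j * w k * (gap a r * (cp.H r j * cp.H r k)) := by
      intro r
      have e1 : ∑ j, ∑ k, w j * w k * (gap a r * (cp.H r j * cp.H r k))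
          = gap a r * ((∑ j, cp.H r j * w j) * ∑ k, cp.H r k * w k) := by
        rw [Finset.sum_mul_sum, Finset.mul_sum]
        refine Finset.sum_congr rfl fun j _ => ?_
        rw [Finset.mul_sum]
        exact Finset.sum_congr rfl fun k _ => by ring
      have e2 : ∑ j, w j * (gap a r * cp.H r j) = gap a r * ∑ j, cp.H r j * w j := by
        rw [Finset.mul_sum]
        exact Finset.sum_congr rfl fun j _ => by ring
      rw [e1, e2, add_sq, div_pow, one_pow, Real.sq_sqrt natM_pos.le]
      field_simp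
    rw [hT]
    simp only
    rw [Finset.sum_congr rfl fun r _ => e r, Finset.sum_add_distrib, Finset.sum_add_distrib,
      ← Finset.mul_sum, Finset.sum_comm]
    congr 1
    · simp only [← Finset.mul_sum]
    · rw [Finset.sum_comm]
      refine Finset.sum_congr rfl fun j _ => ?_
      rw [Finset.sum_comm]
      simp only [← Finset.mul_sum]
  have hfull : ∀ (w : Fin (M - 1) → ℝ),
      -(2 / Real.sqrt M * ∑ j, w j * ∑ r, gap a r * cp.H r j
      + ∑ j, ∑ k, w j * w k * ∑ r, gap a r * (cp.H r j * cp.H r k)) / 2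
        = ∑ j, quadPsi (cp.e j) (cp.b j) (w j) := by
    intro w
    have h := hid w
    rw [hsum, h0, mean_eq, gBar, Finset.sum_div] at h
    linarith
  have hone : ∀ (j : Fin (M - 1)) (x : ℝ),
      -(2 / Real.sqrt M * (x * ∑ r, gap a r * cp.H r j)
        + x * x * ∑ r, gap a r * (cp.H r j * cp.H r j)) / 2 = quadPsi (cp.e j) (cp.b j) x := by
    intro j x
    have h := hfull (fun i => if i = j then x else 0)
    have hr : ∑ i, quadPsi (cp.e i) (cp.b i) (if i = j then x else 0)
        = quadPsi (cp.e j) (cp.b j) x := by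
      rw [Finset.sum_eq_single j (fun i _ hi => by simp [hi, quadPsi]) (by simp), if_pos rfl]
    rw [hr] at h
    simpa [ite_mul, mul_ite, Finset.sum_ite_eq'] using h
  have hcross : ∀ j, ∑ r, gap a r * cp.H r j = -(Real.sqrt M * cp.b j) ∧
      ∑ r, gap a r * (cp.H r j * cp.H r j) = cp.e j := by
    intro j
    have h1 := hone j 1
    have h2 := hone j (-1)
    simp only [quadPsi] at h1 h2
    constructor
    · have : 2 / Real.sqrt M * ∑ r, gap a r * cp.H r j = -(2 * cp.b j) := by linarith
      field_simp at this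
      linarith
    · linarith
  refine ⟨h0, fun j => (hcross j).1, fun j k => ?_⟩
  split_ifs with hjk
  · subst hjk; exact (hcross j).2
  · have h := hfull (fun i => (if i = j then 1 else 0) + (if i = k then 1 else 0))
    have hjj := hone j 1
    have hkk := hone k 1
    have hsym : ∑ r, gap a r * (cp.H r k * cp.H r j) = ∑ r, gap a r * (cp.H r j * cp.H r k) :=
      Finset.sum_congr rfl fun r _ => by ring
    have hrhs : ∑ i, quadPsi (cp.e i) (cp.b i) ((if i = j then 1 else 0) + (if i = k then 1 else 0))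
        = quadPsi (cp.e j) (cp.b j) 1 + quadPsi (cp.e k) (cp.b k) 1 := by
      rw [Finset.sum_eq_add j k hjk (fun i _ hi => by simp [hi.1, hi.2, quadPsi])
        (by simp) (by simp)]
      simp [hjk, Ne.symm hjk]
    rw [hrhs] at h
    simp only [add_mul, mul_add, ite_mul, mul_ite, zero_mul, mul_zero, one_mul,
      Finset.sum_add_distrib, Finset.sum_ite_eq', Finset.mem_univ, if_true, hsym] at h hjj hkk
    linarith

lemma gamma_cross (j : Fin (M - 1)) : ∑ r, gap a r * cp.H r j = -(Real.sqrt M * cp.b j) :=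
  (coords cp).2.1 j

lemma gamma_quad (j k : Fin (M - 1)) :
    ∑ r, gap a r * (cp.H r j * cp.H r k) = if j = k then cp.e j else 0 := (coords cp).2.2 j k

/-- `∑ b² c / (1 + e c)`. -/
noncomputable def resp (c : ℝ) : ℝ := ∑ j, cp.b j ^ 2 * c / (1 + cp.e j * c)

/-- Its derivative. -/
noncomputable def dresp (c : ℝ) : ℝ := ∑ j, cp.b j ^ 2 / (1 + cp.e j * c) ^ 2

lemma eden_pos {c : ℝ} (hc : 0 ≤ c) (j : Fin (M - 1)) : 0 < 1 + cp.e j * c := by
  have := mul_nonneg (cp.pos j).le hc; linarith

/-- The inverse of the compressed form. -/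
theorem phi_mul (ha : Monotone a) {c : ℝ} (hc : 0 ≤ c) :
    phi a c * (1 + c * gBar a - c * resp cp c) = 1 := by
  have hM := (sqrtM_pos (M := M)).ne'
  have hM' := (natM_pos (M := M)).ne'
  set v : Fin M → ℝ := fun r => (1 + gap a r * c)⁻¹ with hv
  set β : Fin (M - 1) → ℝ := fun j => ∑ s, cp.H s j * v s with hβ
  have hvp : ∀ r, v r + c * (gap a r * v r) = 1 := fun r => by
    have := (den_pos ha hc r).ne'
    simp only [hv]
    field_simp
  have hexp : ∀ r, v r = phi a c + ∑ j, β j * cp.H r j := fun r => expand cp v r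
  have hgv : ∀ j, ∑ r, gap a r * (cp.H r j * v r)
      = -(Real.sqrt M * cp.b j) * phi a c + cp.e j * β j := by
    intro j
    have : ∀ r, gap a r * (cp.H r j * v r) = gap a r * cp.H r j * phi a c
        + ∑ k, β k * (gap a r * (cp.H r j * cp.H r k)) := fun r => by
      rw [hexp r, mul_add, mul_add, Finset.mul_sum, Finset.mul_sum]
      congr 1
      · ring
      · exact Finset.sum_congr rfl fun k _ => by ring
    rw [Finset.sum_congr rfl fun r _ => this r, Finset.sum_add_distrib, ← Finset.sum_mul,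
      gamma_cross cp, Finset.sum_comm]
    simp only [← Finset.mul_sum, gamma_quad cp, mul_ite, mul_zero, Finset.sum_ite_eq,
      Finset.mem_univ, if_true]
    ring
  have hβj : ∀ j, β j * (1 + cp.e j * c) = c * Real.sqrt M * cp.b j * phi a c := by
    intro j
    have h : ∑ r, cp.H r j * (v r + c * (gap a r * v r)) = 0 := by simp [hvp, cp.perp]
    have h' : β j + c * ∑ r, gap a r * (cp.H r j * v r) = 0 := by
      rw [← h]
      simp only [hβ, mul_add, Finset.sum_add_distrib, Finset.mul_sum]
      congr 1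
      exact Finset.sum_congr rfl fun r _ => by ring
    rw [hgv] at h'
    linarith
  have hgsum : ∑ r, gap a r * v r
      = M * gBar a * phi a c - Real.sqrt M * ∑ j, β j * cp.b j := by
    have : ∀ r, gap a r * v r = gap a r * phi a c + ∑ j, β j * (gap a r * cp.H r j) := fun r => by
      rw [hexp r, mul_add, Finset.mul_sum]
      congr 1
      exact Finset.sum_congr rfl fun k _ => by ring
    rw [Finset.sum_congr rfl fun r _ => this r, Finset.sum_add_distrib, ← Finset.sum_mul,
      Finset.sum_comm, gBar, mul_div_cancel₀ _ hM', sub_eq_add_neg, Finset.mul_sum,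
      ← Finset.sum_neg_distrib]
    congr 1
    refine Finset.sum_congr rfl fun j _ => ?_
    rw [← Finset.mul_sum, gamma_cross cp]
    ring
  have hb : ∑ j, β j * cp.b j = Real.sqrt M * phi a c * resp cp c := by
    rw [resp, Finset.mul_sum]
    refine Finset.sum_congr rfl fun j _ => ?_
    have := (eden_pos cp hc j).ne'
    rw [show β j = c * Real.sqrt M * cp.b j * phi a c / (1 + cp.e j * c) by
      rw [eq_div_iff this]; exact hβj j]
    field_simp
  have htot : ∑ r, (v r + c * (gap a r * v r)) = M := by simp [hvp]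
  rw [Finset.sum_add_distrib, ← Finset.mul_sum, hgsum, hb,
    show ∑ r, v r = M * phi a c by rw [phi, mul_div_cancel₀ _ hM'], ← mul_assoc (Real.sqrt M),
    ← mul_assoc (Real.sqrt M), Real.mul_self_sqrt natM_pos.le] at htot
  refine mul_left_cancel₀ hM' ?_
  rw [mul_one]
  linarith

/-- The determinant of the compressed form. -/
theorem prod_eq (ha : Monotone a) {c : ℝ} (hc : 0 ≤ c) :
    ∏ j, (1 + cp.e j * c) = phi a c * ∏ r, (1 + gap a r * c) := by
  classical
  have hne : ∀ j, 1 + cp.e j * c ≠ 0 := fun j => (eden_pos cp hc j).ne'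
  set O := basisMat cp
  set G : Matrix (Fin M) (Fin M) ℝ := diagonal fun r => gap a r * c with hG
  have hform : 1 + Oᵀ * (G * O) = fromBlocks (of fun (_ _ : Unit) => 1 + c * gBar a)
      (of fun (_ : Unit) k => -(c * cp.b k)) (of fun j (_ : Unit) => -(c * cp.b j))
      (diagonal fun j => 1 + cp.e j * c) := by
    have hM := (sqrtM_pos (M := M)).ne'
    have hcr : ∀ k, ∑ r, (Real.sqrt M)⁻¹ * (gap a r * c * cp.H r k) = -(c * cp.b k) := fun k => by
      rw [← Finset.mul_sum, show ∑ r, gap a r * c * cp.H r k = c * ∑ r, gap a r * cp.H r k by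
        rw [Finset.mul_sum]; exact Finset.sum_congr rfl fun r _ => by ring, gamma_cross cp]
      field_simp
    ext i k
    rw [Matrix.add_apply, Matrix.mul_apply]
    simp only [hG, diagonal_mul]
    rcases i with _ | i <;> rcases k with _ | k
    · simp only [O, basisMat, transpose_apply, of_apply, Sum.elim_inl, one_apply_eq,
        fromBlocks_apply₁₁, gBar]
      rw [show ∑ r, (Real.sqrt M)⁻¹ * (gap a r * c * (Real.sqrt M)⁻¹)
          = ((Real.sqrt M) * Real.sqrt M)⁻¹ * (c * ∑ r, gap a r) by
        rw [Finset.mul_sum, Finset.mul_sum]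
        exact Finset.sum_congr rfl fun r _ => by rw [mul_inv]; ring,
        Real.mul_self_sqrt natM_pos.le]
      ring
    · simpa [O, basisMat] using hcr k
    · simp only [O, basisMat, transpose_apply, of_apply, Sum.elim_inl, Sum.elim_inr, ne_eq,
        reduceCtorEq, not_false_eq_true, one_apply_ne, zero_add, fromBlocks_apply₂₁]
      rw [← hcr i]
      exact Finset.sum_congr rfl fun r _ => by ring
    · simp only [O, basisMat, transpose_apply, of_apply, Sum.elim_inr, fromBlocks_apply₂₂]
      rw [show ∑ r, cp.H r i * (gap a r * c * cp.H r k)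
          = c * ∑ r, gap a r * (cp.H r i * cp.H r k) by
        rw [Finset.mul_sum]; exact Finset.sum_congr rfl fun r _ => by ring, gamma_quad cp]
      by_cases h : i = k
      · subst h; simp [mul_comm]
      · simp [h]
  have hdet : det (1 + Oᵀ * (G * O)) = ∏ r, (1 + gap a r * c) := by
    rw [det_one_add_mul_comm, Matrix.mul_assoc, basis_right, Matrix.mul_one, hG, ← diagonal_one,
      diagonal_add, det_diagonal]
  let _ : Invertible (diagonal fun j => 1 + cp.e j * c) :=
    ⟨diagonal fun j => (1 + cp.e j * c)⁻¹, by simp [hne], by simp [hne]⟩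
  rw [← hdet, hform, det_fromBlocks₂₂, det_diagonal]
  have e1 : det ((of fun (_ _ : Unit) => 1 + c * gBar a)
      - (of fun (_ : Unit) k => -(c * cp.b k)) * ⅟(diagonal fun j => 1 + cp.e j * c)
        * of fun j (_ : Unit) => -(c * cp.b j)) = 1 + c * gBar a - c * resp cp c := by
    rw [det_unique, Matrix.sub_apply, of_apply, Matrix.mul_apply, resp, Finset.mul_sum]
    congr 1
    refine Finset.sum_congr rfl fun j _ => ?_
    change ((of fun (_ : Unit) k => -(c * cp.b k))
      * diagonal fun j => (1 + cp.e j * c)⁻¹) default j * _ = _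
    rw [mul_diagonal, of_apply, of_apply]
    ring
  rw [e1, mul_left_comm, phi_mul cp ha hc, mul_one]

lemma resp_zero : resp cp 0 = 0 := by simp [resp]

lemma resp_sub {c c' : ℝ} (hc : 0 ≤ c) (hc' : 0 ≤ c') : resp cp c' - resp cp c
    = (c' - c) * ∑ j, cp.b j ^ 2 / ((1 + cp.e j * c) * (1 + cp.e j * c')) := by
  rw [resp, resp, ← Finset.sum_sub_distrib, Finset.mul_sum]
  refine Finset.sum_congr rfl fun j _ => ?_
  have h := (eden_pos cp hc j).ne'
  have h' := (eden_pos cp hc' j).ne'
  rw [div_sub_div _ _ h' h, mul_div_assoc', mul_comm (1 + cp.e j * c) (1 + cp.e j * c')]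
  congr 1
  ring

lemma resp_mono {c c' : ℝ} (hc : 0 ≤ c) (h : c ≤ c') : resp cp c ≤ resp cp c' := by
  have h2 := resp_sub cp hc (hc.trans h)
  have : 0 ≤ (c' - c) * ∑ j, cp.b j ^ 2 / ((1 + cp.e j * c) * (1 + cp.e j * c')) :=
    mul_nonneg (sub_nonneg.2 h) (Finset.sum_nonneg fun j _ => div_nonneg (sq_nonneg _)
      (mul_pos (eden_pos cp hc j) (eden_pos cp (hc.trans h) j)).le)
  linarith

lemma hasDerivAt_resp {c : ℝ} (hc : 0 ≤ c) : HasDerivAt (resp cp) (dresp cp c) c := by
  refine (HasDerivAt.fun_sum fun j _ => ((hasDerivAt_id c).const_mul (cp.b j ^ 2)).div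
    (((hasDerivAt_id c).const_mul (cp.e j)).const_add 1) (eden_pos cp hc j).ne').congr_deriv ?_
  refine Finset.sum_congr rfl fun j _ => ?_
  simp only [id]
  ring

/-- The primitive `∑ log (1 + e c) - (1 - 1/M) ∑ log (1 + gap c)`. -/
noncomputable def prim (c : ℝ) : ℝ :=
  (∑ j, Real.log (1 + cp.e j * c)) - ((M:ℝ) - 1) / M * ∑ r, Real.log (1 + gap a r * c)

/-- Its derivative. -/
noncomputable def dprim (c : ℝ) : ℝ :=
  (∑ j, cp.e j / (1 + cp.e j * c)) - ((M:ℝ) - 1) / M * ∑ r, gap a r / (1 + gap a r * c)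

lemma prim_zero : prim cp 0 = 0 := by simp [prim]

lemma prim_eq (ha : Monotone a) {c : ℝ} (hc : 0 ≤ c) :
    prim cp c = Real.log (phi a c) + (∑ r, Real.log (1 + gap a r * c)) / M := by
  have h := congrArg Real.log (prod_eq cp ha hc)
  rw [Real.log_prod fun j _ => (eden_pos cp hc j).ne', Real.log_mul (phi_pos ha hc).ne'
      (Finset.prod_pos fun r _ => den_pos ha hc r).ne',
    Real.log_prod fun r _ => (den_pos ha hc r).ne'] at h
  rw [prim, h]
  generalize ∑ r, Real.log (1 + gap a r * c) = S
  have := (natM_pos (M := M)).ne'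
  field_simp
  ring

lemma hasDerivAt_prim (ha : Monotone a) {c : ℝ} (hc : 0 ≤ c) :
    HasDerivAt (prim cp) (dprim cp c) c := by
  refine ((HasDerivAt.fun_sum fun j _ => ((((hasDerivAt_id c).const_mul (cp.e j)).const_add 1).log
    (eden_pos cp hc j).ne')).sub ((HasDerivAt.fun_sum fun r _ =>
      ((((hasDerivAt_id c).const_mul (gap a r)).const_add 1).log (den_pos ha hc r).ne')).const_mul
        (((M:ℝ) - 1) / M))).congr_deriv ?_
  simp only [dprim, mul_one, id]

lemma hasDerivAt_phi (ha : Monotone a) {c : ℝ} (hc : 0 ≤ c) :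
    HasDerivAt (phi a) (dphi a c) c := by
  refine ((HasDerivAt.fun_sum fun r _ => (((hasDerivAt_id c).const_mul (gap a r)).const_add 1).inv
    (den_pos ha hc r).ne').div_const (M:ℝ)).congr_deriv ?_
  simp only [dphi, mul_one, id]

/-- The total overlap as a function of the top one. -/
noncomputable def chi (a : Fin M → ℝ) (c : ℝ) : ℝ := c * phi a c

lemma chi_resp (ha : Monotone a) {c : ℝ} (hc : 0 ≤ c) :
    chi a c * resp cp c = chi a c * gBar a + phi a c - 1 := by
  have := phi_mul cp ha hc
  rw [chi]; linarith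

lemma hasDerivAt_chi (ha : Monotone a) {c : ℝ} (hc : 0 ≤ c) :
    HasDerivAt (chi a) (psi a c) c :=
  ((hasDerivAt_id c).mul (hasDerivAt_phi ha hc)).congr_deriv (by
    simp only [psi_eq ha hc, id, one_mul])

/-- The key relation between the two derivatives. -/
theorem chi_dresp (ha : Monotone a) {c : ℝ} (hc : 0 ≤ c) :
    chi a c * dresp cp c = dprim cp c := by
  have hu : UniqueDiffWithinAt ℝ (Set.Ici (0:ℝ)) c := uniqueDiffOn_Ici 0 c hc
  have hP : dprim cp c = dphi a c / phi a c + (∑ r, gap a r / (1 + gap a r * c)) / M := by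
    refine hu.eq_deriv _ (hasDerivAt_prim cp ha hc).hasDerivWithinAt ?_
    refine (((hasDerivAt_phi ha hc).log (phi_pos ha hc).ne').add ((HasDerivAt.fun_sum
      fun r _ => ((((hasDerivAt_id c).const_mul (gap a r)).const_add 1).log
        (den_pos ha hc r).ne')).div_const (M:ℝ))).hasDerivWithinAt.congr_deriv (by
          simp only [mul_one, id]) |>.congr
      (fun x hx => prim_eq cp ha hx) (prim_eq cp ha hc)
  have hE : psi a c * resp cp c + chi a c * dresp cp c = psi a c * gBar a + dphi a c := by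
    refine hu.eq_deriv _
      ((hasDerivAt_chi ha hc).mul (hasDerivAt_resp cp hc)).hasDerivWithinAt ?_
    exact ((((hasDerivAt_chi ha hc).mul_const (gBar a)).add
      (hasDerivAt_phi ha hc)).sub_const 1).hasDerivWithinAt.congr
      (fun x hx => chi_resp cp ha hx) (chi_resp cp ha hc)
  have hS := mul_sum_gap ha hc
  rw [hP]
  set S := (∑ r, gap a r / (1 + gap a r * c)) / (M:ℝ) with hSdef
  rcases hc.eq_or_lt with rfl | hcp
  · simp [chi, hSdef, dphi, phi_zero, neg_div]
  have hφ := (phi_pos ha hc).ne'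
  have h1 := chi_resp cp ha hc
  have hψ := psi_eq ha hc
  rw [chi] at hE h1 ⊢
  refine mul_left_cancel₀ (mul_ne_zero hcp.ne' hφ) ?_
  have e : c * phi a c * (dphi a c / phi a c + S) = c * dphi a c + phi a c * (1 - phi a c) := by
    rw [← hS]; field_simp
  rw [e]
  linear_combination c * phi a c * hE - psi a c * h1 + (1 - phi a c) * hψ

end QuadC

open QuadC in
theorem exists_compress {a : Fin M → ℝ} (ha : StrictMono a) : Nonempty (Compress a) := by
  classical
  have hM := (sqrtM_pos (M := M)).ne'
  -- an orthonormal basis containing the normalised vector of ones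
  let i0 : Fin M := ⟨0, Nat.pos_of_ne_zero (NeZero.ne M)⟩
  let u : EuclideanSpace ℝ (Fin M) := WithLp.toLp 2 fun _ => (Real.sqrt M)⁻¹
  have hu : ‖u‖ = 1 := by
    rw [EuclideanSpace.norm_eq, Real.sqrt_eq_one]
    simp [u, inv_pow, Real.sq_sqrt, natM_pos.le, (natM_pos (M := M)).ne']
  obtain ⟨B, hB⟩ := Orthonormal.exists_orthonormalBasis_extension_of_card_eq (𝕜 := ℝ)
    (E := EuclideanSpace ℝ (Fin M)) (ι := Fin M) (by simp) (v := fun _ => u) (s := {i0})
    (by
      rw [orthonormal_iff_ite]
      intro i j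
      have : i = j := Subsingleton.elim i j
      subst this
      simp [Set.domRestrict, hu])
  have hB0 : B i0 = u := hB i0 rfl
  have hM1 : M - 1 + 1 = M := Nat.sub_add_cancel (Nat.one_le_iff_ne_zero.2 (NeZero.ne M))
  let σ : Fin (M - 1) → Fin M := fun j => Fin.cast hM1 j.succ
  have hσ0 : ∀ j, σ j ≠ i0 := fun j h => by simp [σ, i0, Fin.ext_iff] at h
  have hσi : Function.Injective σ := fun j k h => by simpa [σ, Fin.ext_iff] using h
  let H0 : Matrix (Fin M) (Fin (M - 1)) ℝ := Matrix.of fun r j => B (σ j) r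
  have horth0 : H0ᵀ * H0 = 1 := by
    ext j k
    have := orthonormal_iff_ite.1 B.orthonormal (σ k) (σ j)
    simp only [EuclideanSpace.inner_eq_star_dotProduct, dotProduct, star_trivial] at this
    rw [Matrix.mul_apply, one_apply]
    simp only [H0, transpose_apply, of_apply]
    rw [this]
    by_cases h : j = k
    · simp [h]
    · rw [if_neg h, if_neg fun h' => h (hσi h').symm]
  have hperp0 : ∀ j, ∑ r, H0 r j = 0 := by
    intro j
    have := orthonormal_iff_ite.1 B.orthonormal (σ j) i0
    rw [hB0, if_neg (hσ0 j)] at this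
    simp only [EuclideanSpace.inner_eq_star_dotProduct, dotProduct, star_trivial, u] at this
    rw [← Finset.mul_sum] at this
    exact (mul_eq_zero.1 this).resolve_left (inv_ne_zero hM)
  -- diagonalise the compressed form
  let A : Matrix (Fin (M - 1)) (Fin (M - 1)) ℝ := H0ᵀ * (diagonal (gap a) * H0)
  have hA : A.IsHermitian := by
    rw [IsHermitian, conjTranspose_eq_transpose_of_trivial]
    simp [A, Matrix.mul_assoc]
  let V : Matrix (Fin (M - 1)) (Fin (M - 1)) ℝ := hA.eigenvectorUnitary
  let H := H0 * V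
  have hV : Vᵀ * V = 1 := by
    have := Unitary.coe_star_mul_self hA.eigenvectorUnitary
    rwa [Matrix.star_eq_conjTranspose, conjTranspose_eq_transpose_of_trivial] at this
  have hdiag : Hᵀ * (diagonal (gap a) * H) = diagonal hA.eigenvalues := by
    have e : Vᵀ * A * V = diagonal hA.eigenvalues := by
      have := hA.conjStarAlgAut_star_eigenvectorUnitary
      rw [Unitary.conjStarAlgAut_star_apply, Matrix.star_eq_conjTranspose,
        conjTranspose_eq_transpose_of_trivial] at this
      simpa [V, Function.comp_def] using this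
    rw [← e]
    simp only [A, H, transpose_mul, Matrix.mul_assoc]
  have horth : Hᵀ * H = 1 := by
    simp only [H, transpose_mul, Matrix.mul_assoc]
    rw [← Matrix.mul_assoc H0ᵀ, horth0, Matrix.one_mul, hV]
  have horth' : ∀ i j, ∑ r, H r i * H r j = if i = j then 1 else 0 := fun i j => by
    have := congrFun (congrFun horth i) j
    simpa [Matrix.mul_apply, one_apply] using this
  have hperp : ∀ j, ∑ r, H r j = 0 := fun j => by
    simp only [H, Matrix.mul_apply]
    rw [Finset.sum_comm]
    simp [← Finset.sum_mul, hperp0]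
  have hquad : ∀ j k, ∑ r, gap a r * (H r j * H r k) = if j = k then hA.eigenvalues j else 0 := by
    intro j k
    have := congrFun (congrFun hdiag j) k
    rw [Matrix.mul_apply, diagonal_apply] at this
    rw [← this]
    refine Finset.sum_congr rfl fun r _ => ?_
    rw [diagonal_mul, transpose_apply]
    ring
  refine ⟨⟨H, hA.eigenvalues, fun j => -(∑ r, gap a r * H r j) / Real.sqrt M,
    (∑ r, a r) / M / 2, horth', hperp, fun j => ?_, fun τ hτ w => ?_⟩⟩
  · -- positive: a column orthogonal to the ones is not supported on the top atom alone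
    have h := hquad j j
    rw [if_pos rfl] at h
    rw [← h]
    obtain ⟨r, hr, hr0⟩ : ∃ r, r ≠ topA M ∧ H r j ≠ 0 := by
      by_contra hc
      push Not at hc
      have h1 := hperp j
      rw [Finset.sum_eq_single (topA M) (fun r _ hr => hc r hr) (by simp)] at h1
      have h2 := horth' j j
      rw [Finset.sum_eq_single (topA M) (fun r _ hr => by simp [hc r hr]) (by simp), h1] at h2
      simp at h2
    refine Finset.sum_pos' (fun r _ => mul_nonneg (gap_nonneg ha.monotone r) (mul_self_nonneg _))
      ⟨r, mem_univ r, mul_pos (gap_pos ha hr) (mul_self_pos.2 hr0)⟩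
  · have hgap : ∀ r, a r - a (topA M) = -gap a r := fun r => by rw [gap]; ring
    have e : ∀ r, (τ / Real.sqrt M + ∑ j, H r j * w j) ^ 2
        = 1 / M + 2 * τ / Real.sqrt M * ∑ j, H r j * w j
          + ∑ j, ∑ k, w j * w k * (H r j * H r k) := by
      intro r
      have e1 : (∑ j, H r j * w j) ^ 2 = ∑ j, ∑ k, w j * w k * (H r j * H r k) := by
        rw [sq, Finset.sum_mul_sum]
        exact Finset.sum_congr rfl fun j _ => Finset.sum_congr rfl fun k _ => by ring
      rw [add_sq, div_pow, hτ, Real.sq_sqrt natM_pos.le, e1]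
      ring
    have h1 : ∑ r, (a r - a (topA M)) * (τ / Real.sqrt M + ∑ j, H r j * w j) ^ 2
        = -(∑ r, gap a r) / M
          - 2 * τ / Real.sqrt M * ∑ j, w j * ∑ r, gap a r * H r j
          - ∑ j, ∑ k, w j * w k * ∑ r, gap a r * (H r j * H r k) := by
      simp only [hgap, e, mul_add, Finset.sum_add_distrib, Finset.mul_sum]
      rw [Finset.sum_comm (f := fun r j => -gap a r * (2 * τ / Real.sqrt M * (H r j * w j))),
        Finset.sum_comm (f := fun r j => ∑ k, -gap a r * (w j * w k * (H r j * H r k))),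
        Finset.sum_congr rfl fun j (_ : j ∈ univ) => Finset.sum_comm
          (f := fun r k => -gap a r * (w j * w k * (H r j * H r k))), sub_eq_add_neg,
        sub_eq_add_neg, neg_div, Finset.sum_div]
      simp only [← Finset.sum_neg_distrib]
      congr 1
      · congr 1
        · exact Finset.sum_congr rfl fun r _ => by ring
        · exact Finset.sum_congr rfl fun j _ => Finset.sum_congr rfl fun r _ => by ring
      · exact Finset.sum_congr rfl fun j _ => Finset.sum_congr rfl fun k _ =>
          Finset.sum_congr rfl fun r _ => by ring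
    have hq : ∀ j, quadPsi (hA.eigenvalues j) (-(∑ r, gap a r * H r j) / Real.sqrt M) (τ * w j)
        = -(τ / Real.sqrt M * (w j * ∑ r, gap a r * H r j))
          - hA.eigenvalues j * w j ^ 2 / 2 := fun j => by
      rw [quadPsi, mul_pow, hτ]
      ring
    simp only [h1, hquad, mul_ite, mul_zero, Finset.sum_ite_eq, mem_univ, if_true, hq,
      Finset.sum_sub_distrib, Finset.sum_neg_distrib, ← Finset.mul_sum]
    rw [mean_eq, gBar]
    rw [show ∑ j, hA.eigenvalues j * w j ^ 2 / 2 = (∑ j, w j * w j * hA.eigenvalues j) / 2 by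
      rw [Finset.sum_div]; exact Finset.sum_congr rfl fun j _ => by ring]
    ring

end Vale.Agent.P166.Parisi
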