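import Vale.Agent.P166.Parisi.Sys
import Vale.Agent.P157.Parisi.Quad

/-!
Gaussian vectors under linear maps with disjoint rows and under a diagonal quadratic tilt; one step
of the recursion from a quadratic plus a separable function of such linear forms.
-/

namespace Vale.Agent.P166.Parisi

open MeasureTheory ProbabilityTheory Finset
open Vale.Agent.P157 Vale.Agent.P157.Parisi

namespace QuadC

variable {ι : Type} [Fintype ι] {k : ℕ}

/-! ### Functions with slope at most one -/

/-- Slope at most one. -/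
def Lip1 (g : ℝ → ℝ) : Prop := ∀ x y, g x ≤ g y + |x - y|

lemma Lip1.abs_sub {g : ℝ → ℝ} (hg : Lip1 g) (x y : ℝ) : |g x - g y| ≤ |x - y| := by
  rw [abs_sub_le_iff]
  exact ⟨by linarith [hg x y], by linarith [hg y x, abs_sub_comm x y]⟩

lemma Lip1.continuous {g : ℝ → ℝ} (hg : Lip1 g) : Continuous g :=
  (LipschitzWith.of_dist_le' (K := 1) fun x y => by
    simpa [Real.dist_eq] using hg.abs_sub x y).continuous

lemma Lip1.integrable {g : ℝ → ℝ} (hg : Lip1 g) (c y : ℝ) :
    Integrable (fun z => g (y + c * z)) (gaussianReal 0 1) := by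
  have h1 : Integrable (fun z : ℝ => |g y| + |c| * |z|) (gaussianReal 0 1) :=
    (integrable_const _).add (((memLp_id_gaussianReal 1).integrable le_rfl).abs.const_mul _)
  refine h1.mono' (hg.continuous.comp (by fun_prop)).aestronglyMeasurable (.of_forall fun z => ?_)
  rw [Real.norm_eq_abs]
  have h := hg.abs_sub (y + c * z) y
  rw [add_sub_cancel_left, abs_mul] at h
  exact (abs_sub_abs_le_abs_sub (g (y + c * z)) (g y)).trans h |> sub_le_iff_le_add'.1

lemma integrable_exp_abs (a : ℝ) :
    Integrable (fun z : ℝ => Real.exp (a * |z|)) (gaussianReal 0 1) := by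
  refine ((integrable_exp_mul_gaussianReal a).add (integrable_exp_mul_gaussianReal (-a))).mono'
    (by fun_prop) (.of_forall fun z => ?_)
  rw [Real.norm_eq_abs, Real.abs_exp]
  simp only [Pi.add_apply]
  rcases abs_choice z with h | h <;> rw [h]
  · exact le_add_of_nonneg_right (Real.exp_pos _).le
  · rw [mul_neg, neg_mul]
    exact le_add_of_nonneg_left (Real.exp_pos _).le

lemma Lip1.exp_integrable {g : ℝ → ℝ} (hg : Lip1 g) {m : ℝ} (hm : 0 ≤ m) (c y : ℝ) :
    Integrable (fun z => Real.exp (m * g (y + c * z))) (gaussianReal 0 1) := by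
  refine ((integrable_exp_abs (m * |c|)).const_mul (Real.exp (m * g y))).mono'
    (Real.continuous_exp.comp (continuous_const.mul (hg.continuous.comp (by fun_prop)))
      ).aestronglyMeasurable (.of_forall fun z => ?_)
  rw [Real.norm_eq_abs, Real.abs_exp, ← Real.exp_add, Real.exp_le_exp]
  have h := hg (y + c * z) y
  rw [add_sub_cancel_left, abs_mul] at h
  calc m * g (y + c * z) ≤ m * (g y + |c| * |z|) := mul_le_mul_of_nonneg_left h hm
    _ = m * g y + m * |c| * |z| := by ring

lemma Lip1.add_const {g : ℝ → ℝ} (hg : Lip1 g) (c : ℝ) : Lip1 fun x => g x + c :=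
  fun x y => by linarith [hg x y]

lemma Lip1.step_pos {g : ℝ → ℝ} (hg : Lip1 g) {m : ℝ} (hm : 0 < m) (c y : ℝ) :
    0 < ∫ z, Real.exp (m * g (y + c * z)) ∂gaussianReal 0 1 :=
  integral_exp_pos (hg.exp_integrable hm.le c y)

lemma gaussStep_add_const {g : ℝ → ℝ} (hg : Lip1 g) {m : ℝ} (hm : 0 < m) (v c y : ℝ) :
    gaussStep m v (fun x => g x + c) y = gaussStep m v g y + c := by
  simp only [gaussStep, mul_add, Real.exp_add, integral_mul_const]
  rw [Real.log_mul (hg.step_pos hm _ _).ne' (Real.exp_pos _).ne', Real.log_exp, mul_add,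
    inv_mul_cancel_left₀ hm.ne']

lemma Lip1.gaussStep {g : ℝ → ℝ} (hg : Lip1 g) {m : ℝ} (hm : 0 < m) (v : ℝ) :
    Lip1 (gaussStep m v g) := fun x y => by
  simp only [Vale.Agent.P157.Parisi.gaussStep]
  have h : ∫ z, Real.exp (m * g (x + Real.sqrt v * z)) ∂gaussianReal 0 1 ≤
      Real.exp (m * |x - y|) * ∫ z, Real.exp (m * g (y + Real.sqrt v * z)) ∂gaussianReal 0 1 := by
    rw [← integral_const_mul]
    refine integral_mono (hg.exp_integrable hm.le _ _)
      ((hg.exp_integrable hm.le _ _).const_mul _) fun z => ?_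
    simp only
    rw [← Real.exp_add, Real.exp_le_exp, ← mul_add]
    refine mul_le_mul_of_nonneg_left ?_ hm.le
    have := hg (x + Real.sqrt v * z) (y + Real.sqrt v * z)
    rw [add_sub_add_right_eq_sub] at this
    linarith
  have h2 := Real.log_le_log (hg.step_pos hm _ _) h
  rw [Real.log_mul (Real.exp_pos _).ne' (hg.step_pos hm _ _).ne', Real.log_exp] at h2
  calc _ ≤ m⁻¹ * (m * |x - y| +
        Real.log (∫ z, Real.exp (m * g (y + Real.sqrt v * z)) ∂gaussianReal 0 1)) :=
        mul_le_mul_of_nonneg_left h2 (inv_nonneg.2 hm.le)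
    _ = _ := by rw [mul_add, inv_mul_cancel_left₀ hm.ne']; ring

lemma lip1_logCosh : Lip1 fun x => Real.log (Real.cosh x) := fun x y => by
  have h : Real.cosh x ≤ Real.exp |x - y| * Real.cosh y := by
    rw [Real.cosh_eq, Real.cosh_eq, ← mul_div_assoc, mul_add, ← Real.exp_add, ← Real.exp_add]
    refine div_le_div_of_nonneg_right (add_le_add (Real.exp_le_exp.2 ?_) (Real.exp_le_exp.2 ?_))
      two_pos.le
    · linarith [le_abs_self (x - y)]
    · linarith [neg_abs_le (x - y)]
  have h2 := Real.log_le_log (Real.cosh_pos x) h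
  rw [Real.log_mul (Real.exp_pos _).ne' (Real.cosh_pos y).ne', Real.log_exp] at h2
  linarith

/-- The last step, of parameter one. -/
lemma gaussStep_logCosh {v : ℝ} (hv : 0 ≤ v) :
    gaussStep 1 v (fun x => Real.log (Real.cosh x)) =
      fun x => Real.log (Real.cosh x) + v / 2 := by
  funext y
  simp only [gaussStep, inv_one, one_mul, Real.exp_log (Real.cosh_pos _)]
  have key : ∫ z, Real.cosh (y + Real.sqrt v * z) ∂gaussianReal 0 1 =
      Real.cosh y * Real.exp (v / 2) := by
    have hd : ∀ z, Real.cosh (y + Real.sqrt v * z) =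
        Real.exp y / 2 * Real.exp (Real.sqrt v * z) +
          Real.exp (-y) / 2 * Real.exp (-Real.sqrt v * z) := fun z => by
      rw [Real.cosh_eq, neg_add, ← neg_mul, Real.exp_add, Real.exp_add]
      ring
    have hmgf : ∀ t : ℝ, ∫ z, Real.exp (t * z) ∂gaussianReal 0 1 = Real.exp (t ^ 2 / 2) := by
      intro t
      have := congrFun (mgf_id_gaussianReal (μ := 0) (v := 1)) t
      simpa [mgf, id] using this
    simp only [hd]
    rw [integral_add ((integrable_exp_mul_gaussianReal _).const_mul _)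
      ((integrable_exp_mul_gaussianReal _).const_mul _), integral_const_mul, integral_const_mul,
      hmgf, hmgf, neg_sq, Real.sq_sqrt hv, Real.cosh_eq]
    ring
  rw [key, Real.log_mul (Real.cosh_pos y).ne' (Real.exp_pos _).ne', Real.log_exp]

/-! ### Linear forms of a Gaussian vector -/

/-- The characteristic function of a linear form. -/
lemma gauss_charFun (a : ι → ℝ) :
    ∫ g, Complex.exp ((∑ p, g p * a p : ℝ) * Complex.I) ∂gauss ι =
      (Real.exp (-(∑ p, a p ^ 2) / 2) : ℂ) := by
  have h := integral_exp_field (k := 1) (X := Unit) (fun _ p => a p) (fun _ => ()) (fun _ => 1)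
  simpa [field, phaseVar] using h

/-- Rows with disjoint supports give independent coordinates. -/
lemma gauss_lin (A : Fin k → ι → ℝ) (hA : ∀ i i', i ≠ i' → ∀ p, A i p * A i' p = 0) :
    (gauss ι).map (fun z i => ∑ p, A i p * z p) =
      (gauss (Fin k)).map fun z i => Real.sqrt (∑ p, A i p ^ 2) * z i := by
  classical
  refine Measure.ext_of_charFunDual (funext fun L => ?_)
  set a : Fin k → ℝ := fun i => L (Pi.single i 1)
  have hL : ∀ x : Fin k → ℝ, L x = ∑ i, x i * a i := fun x => by
    conv_lhs => rw [pi_eq_sum_univ' x]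
    simp only [map_sum, map_smul, smul_eq_mul, a]
  simp only [charFunDual_apply]
  rw [integral_map (by fun_prop : Continuous _).aemeasurable (by fun_prop),
    integral_map (by fun_prop : Continuous _).aemeasurable (by fun_prop)]
  simp only [hL]
  have e1 : ∀ z : ι → ℝ, ∑ i, (∑ p, A i p * z p) * a i = ∑ p, z p * ∑ i, A i p * a i := fun z => by
    simp only [Finset.sum_mul, Finset.mul_sum]
    rw [Finset.sum_comm]
    exact sum_congr rfl fun p _ => sum_congr rfl fun i _ => by ring
  have e2 : ∀ z : Fin k → ℝ, ∑ i, Real.sqrt (∑ p, A i p ^ 2) * z i * a i =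
      ∑ i, z i * (Real.sqrt (∑ p, A i p ^ 2) * a i) := fun z =>
    sum_congr rfl fun i _ => by ring
  simp only [e1, e2, gauss_charFun]
  congr 3
  simp only [mul_pow, Real.sq_sqrt (sum_nonneg fun p _ => sq_nonneg _), Finset.sum_mul]
  rw [Finset.sum_comm]
  congr 1
  refine sum_congr rfl fun p _ => ?_
  rw [sq, Finset.sum_mul_sum]
  refine sum_congr rfl fun i _ => ?_
  rw [Finset.sum_eq_single i (fun i' _ h => by
    linear_combination a i * a i' * hA i i' h.symm p) (by simp)]
  ring

/-- The integral of a function of such linear forms. -/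
lemma integral_gauss_lin (A : Fin k → ι → ℝ) (hA : ∀ i i', i ≠ i' → ∀ p, A i p * A i' p = 0)
    {F : (Fin k → ℝ) → ℝ} (hF : Continuous F) :
    ∫ z, F (fun i => ∑ p, A i p * z p) ∂gauss ι =
      ∫ z, F (fun i => Real.sqrt (∑ p, A i p ^ 2) * z i) ∂gauss (Fin k) := by
  have h := congrArg (fun μ : Measure (Fin k → ℝ) => ∫ s, F s ∂μ) (gauss_lin A hA)
  rwa [integral_map (by fun_prop : Continuous _).aemeasurable hF.aestronglyMeasurable,
    integral_map (by fun_prop : Continuous _).aemeasurable hF.aestronglyMeasurable] at h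

/-! ### The quadratic tilt -/

/-- The normalisation of the tilt of one coordinate. -/
noncomputable def tiltZ (p r : ℝ) : ℝ :=
  Real.exp (r ^ 2 / (2 * (1 - 2 * p))) / Real.sqrt (1 - 2 * p)

lemma tiltZ_pos {p : ℝ} (hp : p < 1 / 2) (r : ℝ) : 0 < tiltZ p r :=
  div_pos (Real.exp_pos _) (Real.sqrt_pos.2 (by linarith))

lemma tilt_one {p : ℝ} (hp : p < 1 / 2) (r : ℝ) {s : Set ℝ} (hs : MeasurableSet s) :
    ∫ z, s.indicator (fun z => Real.exp (p * z ^ 2 + r * z)) z ∂gaussianReal 0 1 =
      tiltZ p r *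
        ((gaussianReal 0 1).map fun z => r / (1 - 2 * p) + (Real.sqrt (1 - 2 * p))⁻¹ * z).real s
    := by
  have hq : 0 < 1 - 2 * p := by linarith
  set c := (Real.sqrt (1 - 2 * p))⁻¹ with hc
  have hc0 : c ≠ 0 := inv_ne_zero (Real.sqrt_pos.2 hq).ne'
  set v : NNReal := ⟨c ^ 2, sq_nonneg c⟩ with hv
  have hv0 : v ≠ 0 := fun h => pow_ne_zero 2 hc0 (congrArg NNReal.toReal h)
  have hmap : (gaussianReal 0 1).map (fun z => r / (1 - 2 * p) + c * z) =
      gaussianReal (r / (1 - 2 * p)) v := by
    rw [show (fun z => r / (1 - 2 * p) + c * z) = (r / (1 - 2 * p) + ·) ∘ (c * ·) from rfl,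
      ← Measure.map_map (by fun_prop) (by fun_prop), gaussianReal_map_const_mul,
      gaussianReal_map_const_add]
    simp [hv]
    rfl
  rw [hmap, measureReal_def, gaussianReal_apply_eq_integral _ hv0,
    ENNReal.toReal_ofReal (integral_nonneg fun x => gaussianPDFReal_nonneg _ _ _),
    integral_gaussianReal_eq_integral_smul one_ne_zero, ← integral_const_mul,
    ← integral_indicator hs]
  refine integral_congr_ae (.of_forall fun z => ?_)
  by_cases hz : z ∈ s
  · simp only [Set.indicator_of_mem hz, smul_eq_mul, gaussianPDFReal, NNReal.coe_one, mul_one,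
      sub_zero, hv, tiltZ]
    change _ = _ * ((Real.sqrt (2 * Real.pi * c ^ 2))⁻¹ *
      Real.exp (-(z - r / (1 - 2 * p)) ^ 2 / (2 * c ^ 2)))
    have hc2 : c ^ 2 = (1 - 2 * p)⁻¹ := by rw [hc, inv_pow, Real.sq_sqrt hq.le]
    rw [hc2, Real.sqrt_mul (by positivity : (0:ℝ) ≤ 2 * Real.pi) (1 - 2 * p)⁻¹, Real.sqrt_inv]
    have h2 := (Real.sqrt_pos.2 (by positivity : (0:ℝ) < 2 * Real.pi)).ne'
    have h3 := (Real.sqrt_pos.2 hq).ne'
    field_simp
    rw [← Real.exp_add, ← Real.exp_add]
    congr 1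
    field_simp
    ring
  · simp [Set.indicator_of_notMem hz]

/-- Tilting a Gaussian vector by a diagonal quadratic: translation and scaling. -/
lemma integral_tilt (p r : ι → ℝ) (hp : ∀ i, p i < 1 / 2) {G : (ι → ℝ) → ℝ} (hG : Continuous G) :
    ∫ z, Real.exp (∑ i, (p i * z i ^ 2 + r i * z i)) * G z ∂gauss ι =
      (∏ i, tiltZ (p i) (r i)) *
        ∫ z, G (fun i => r i / (1 - 2 * p i) + (Real.sqrt (1 - 2 * p i))⁻¹ * z i) ∂gauss ι := by
  set W : (ι → ℝ) → ℝ := fun z => ∏ i, Real.exp (p i * z i ^ 2 + r i * z i) with hW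
  have hWc : Continuous W := by fun_prop
  have hWi : Integrable W (gauss ι) :=
    Integrable.fintype_prod fun i => (integral_exp_sq_add (hp i) (r i)).1
  have hW0 : ∀ z, 0 ≤ W z := fun z => prod_nonneg fun i _ => (Real.exp_pos _).le
  have hZ : 0 ≤ ∏ i, tiltZ (p i) (r i) := prod_nonneg fun i _ => (tiltZ_pos (hp i) _).le
  set ν : ι → Measure ℝ := fun i => (gaussianReal 0 1).map
    fun z => r i / (1 - 2 * p i) + (Real.sqrt (1 - 2 * p i))⁻¹ * z
  have : ∀ i, IsProbabilityMeasure (ν i) := fun i =>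
    Measure.isProbabilityMeasure_map (by fun_prop)
  have hden : (gauss ι).withDensity (fun z => ENNReal.ofReal (W z)) =
      ENNReal.ofReal (∏ i, tiltZ (p i) (r i)) • Measure.pi ν := by
    classical
    have hfin : IsFiniteMeasure ((gauss ι).withDensity fun z => ENNReal.ofReal (W z)) :=
      isFiniteMeasure_withDensity_ofReal hWi.2
    refine Measure.ext_of_generateFrom_of_iUnion
      (Set.pi Set.univ '' Set.pi Set.univ fun _ => {s : Set ℝ | MeasurableSet s}) (fun _ => Set.univ)
      generateFrom_pi.symm isPiSystem_pi (Set.iUnion_const _)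
      (fun _ => ⟨fun _ => Set.univ, by simp, Set.pi_univ _⟩)
      (fun _ => measure_ne_top _ _) ?_
    rintro _ ⟨s, hs, rfl⟩
    have hsm : ∀ i, MeasurableSet (s i) := fun i => hs i (Set.mem_univ i)
    rw [withDensity_apply _ (MeasurableSet.univ_pi hsm),
      ← ofReal_integral_eq_lintegral_ofReal hWi.integrableOn (ae_of_all _ hW0),
      Measure.smul_apply, Measure.pi_pi, smul_eq_mul]
    have hprod : ∏ i, ν i (s i) = ENNReal.ofReal (∏ i, (ν i).real (s i)) := by
      rw [ENNReal.ofReal_prod_of_nonneg fun i _ => measureReal_nonneg]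
      exact prod_congr rfl fun i _ => (ofReal_measureReal).symm
    rw [hprod, ← ENNReal.ofReal_mul hZ, ← prod_mul_distrib,
      ← integral_indicator (MeasurableSet.univ_pi hsm)]
    congr 1
    have hind : ∀ z : ι → ℝ, (Set.pi Set.univ s).indicator W z =
        ∏ i, (s i).indicator (fun x => Real.exp (p i * x ^ 2 + r i * x)) (z i) := by
      intro z
      by_cases hz : z ∈ Set.pi Set.univ s
      · rw [Set.indicator_of_mem hz]
        exact prod_congr rfl fun i _ => by rw [Set.indicator_of_mem (hz i (Set.mem_univ i))]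
      · rw [Set.indicator_of_notMem hz]
        simp only [Set.mem_univ_pi, not_forall] at hz
        obtain ⟨i, hi⟩ := hz
        exact (prod_eq_zero (mem_univ i) (Set.indicator_of_notMem hi _)).symm
    simp only [hind]
    rw [show gauss ι = Measure.pi fun _ : ι => gaussianReal 0 1 from rfl,
      integral_fintype_prod_eq_prod fun i x =>
        (s i).indicator (fun x => Real.exp (p i * x ^ 2 + r i * x)) x]
    exact prod_congr rfl fun i _ => tilt_one (hp i) (r i) (hsm i)
  have hexp : ∀ z, Real.exp (∑ i, (p i * z i ^ 2 + r i * z i)) = W z := fun z => by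
    rw [Real.exp_sum]
  have h := congrArg (fun μ : Measure (ι → ℝ) => ∫ z, G z ∂μ) hden
  rw [integral_withDensity_eq_integral_toReal_smul (by fun_prop)
    (ae_of_all _ fun z => ENNReal.ofReal_lt_top), integral_smul_measure,
    ENNReal.toReal_ofReal hZ] at h
  have hν : Measure.pi ν = (gauss ι).map
      fun z i => r i / (1 - 2 * p i) + (Real.sqrt (1 - 2 * p i))⁻¹ * z i :=
    (Measure.pi_map_pi (fun i => by fun_prop)).symm
  rw [hν, integral_map (by fun_prop : Continuous _).aemeasurable hG.aestronglyMeasurable] at h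
  simp only [hexp]
  rw [← smul_eq_mul, ← h]
  refine integral_congr_ae (.of_forall fun z => ?_)
  simp [ENNReal.toReal_ofReal (hW0 z)]

/-! ### One step -/

variable {J : Type} [Fintype J]

/-- The field on the extra spin `i`. -/
def sOf (t : J → Fin k) (B : J → ℝ) (y : J ⊕ Fin k → ℝ) (i : Fin k) : ℝ :=
  (∑ j, if t j = i then B j * y (Sum.inl j) else 0) + y (Sum.inr i)

/-- A quadratic plus a separable function of the fields. -/
noncomputable def quadU (t : J → Fin k) (A B : J → ℝ) (g : Fin k → ℝ → ℝ) (c : ℝ)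
    (y : J ⊕ Fin k → ℝ) : ℝ :=
  c - (∑ j, A j * y (Sum.inl j) ^ 2) / 2 + ∑ i, g i (sOf t B y i)

/-- The rows of the fields. -/
noncomputable def rowOf (t : J → Fin k) (B : J → ℝ) (e : Fin k → ℝ) (i : Fin k) : J ⊕ Fin k → ℝ :=
  Sum.elim (fun j => if t j = i then B j else 0) fun i' => if i' = i then e i' else 0

omit [Fintype J] in
lemma rowOf_disjoint (t : J → Fin k) (B : J → ℝ) (e : Fin k → ℝ) (i i' : Fin k) (h : i ≠ i')
    (p : J ⊕ Fin k) : rowOf t B e i p * rowOf t B e i' p = 0 := by
  rcases p with j | i'' <;> simp only [rowOf, Sum.elim_inl, Sum.elim_inr]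
  · by_cases hj : t j = i
    · rw [if_neg (fun hj' => h (hj.symm.trans hj'))]; ring
    · rw [if_neg hj]; ring
  · by_cases hj : i'' = i
    · rw [if_neg (fun hj' => h (hj.symm.trans hj'))]; ring
    · rw [if_neg hj]; ring

lemma rowOf_sq (t : J → Fin k) (B : J → ℝ) (e : Fin k → ℝ) (i : Fin k) :
    ∑ p, rowOf t B e i p ^ 2 = (∑ j, if t j = i then B j ^ 2 else 0) + e i ^ 2 := by
  simp [Fintype.sum_sum_type, rowOf, ite_pow]

lemma sum_rowOf (t : J → Fin k) (B : J → ℝ) (e : Fin k → ℝ) (z : J ⊕ Fin k → ℝ) (i : Fin k) :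
    ∑ p, rowOf t B e i p * z p =
      (∑ j, if t j = i then B j * z (Sum.inl j) else 0) + e i * z (Sum.inr i) := by
  simp [Fintype.sum_sum_type, rowOf, ite_mul]

theorem stepLog_quadU (t : J → Fin k) (A B : J → ℝ) (hA : ∀ j, 0 ≤ A j) (g : Fin k → ℝ → ℝ)
    (hg : ∀ i, Lip1 (g i)) (c : ℝ) {m : ℝ} (hm : 0 < m) {v : ℝ} (hv : 0 ≤ v) (e : Fin k → ℝ) :
    stepLog m (Sum.elim (fun _ : J => Real.sqrt v) e) (quadU t A B g c) =
      quadU t (fun j => A j / (1 + m * A j * v)) (fun j => B j / (1 + m * A j * v))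
        (fun i => gaussStep m
          ((∑ j, if t j = i then B j ^ 2 * v / (1 + m * A j * v) else 0) + e i ^ 2) (g i))
        (c - (∑ j, Real.log (1 + m * A j * v)) / (2 * m)) := by
  funext y
  set d : J → ℝ := fun j => 1 + m * A j * v with hd
  have hd0 : ∀ j, 0 < d j := fun j => by
    have : 0 ≤ m * A j * v := mul_nonneg (mul_nonneg hm.le (hA j)) hv
    simp only [hd]; linarith
  set a := Real.sqrt v with ha
  have ha2 : a ^ 2 = v := Real.sq_sqrt hv
  set p : J ⊕ Fin k → ℝ := Sum.elim (fun j => -(m * A j * v) / 2) 0 with hp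
  set r : J ⊕ Fin k → ℝ := Sum.elim (fun j => -(m * A j * a * y (Sum.inl j))) 0 with hr
  have hp2 : ∀ q, p q < 1 / 2 := by
    rintro (j | i) <;> simp only [hp, Sum.elim_inl, Sum.elim_inr, Pi.zero_apply]
    · linarith [hd0 j, show d j = 1 + m * A j * v from rfl]
    · norm_num
  have h1p : ∀ j, 1 - 2 * p (Sum.inl j) = d j := fun j => by
    simp only [hp, hd, Sum.elim_inl]; ring
  set s0 : Fin k → ℝ := sOf t (fun j => B j / d j) y with hs0
  set Q : Fin k → ℝ → ℝ := fun i x => Real.exp (m * g i x)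
  have hQc : ∀ i, Continuous (Q i) := fun i =>
    Real.continuous_exp.comp (continuous_const.mul (hg i).continuous)
  have hsplit : ∀ z, Real.exp (m * quadU t A B g c (move (Sum.elim (fun _ : J => a) e) y z)) =
      Real.exp (m * (c - (∑ j, A j * y (Sum.inl j) ^ 2) / 2)) *
        (Real.exp (∑ q, (p q * z q ^ 2 + r q * z q)) *
          ∏ i, Q i (sOf t B (move (Sum.elim (fun _ : J => a) e) y z) i)) := by
    intro z
    rw [← Real.exp_sum, ← Real.exp_add, ← Real.exp_add]
    congr 1
    have e1 : ∑ j, A j * (y (Sum.inl j) + a * z (Sum.inl j)) ^ 2 =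
        ∑ j, A j * y (Sum.inl j) ^ 2 + ∑ j, (2 * A j * a * y (Sum.inl j) * z (Sum.inl j) +
          A j * v * z (Sum.inl j) ^ 2) := by
      rw [← sum_add_distrib]
      exact sum_congr rfl fun j _ => by rw [← ha2]; ring
    have e2 : ∑ q, (p q * z q ^ 2 + r q * z q) =
        -(m / 2) * ∑ j, (2 * A j * a * y (Sum.inl j) * z (Sum.inl j) +
          A j * v * z (Sum.inl j) ^ 2) := by
      rw [Fintype.sum_sum_type, mul_sum]
      simp only [hp, hr, Sum.elim_inl, Sum.elim_inr, Pi.zero_apply, zero_mul, add_zero,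
        sum_const_zero]
      exact sum_congr rfl fun j _ => by ring
    rw [e2, quadU]
    simp only [move, Sum.elim_inl]
    rw [e1, ← mul_sum]
    ring
  have hshift : ∀ z : J ⊕ Fin k → ℝ,
      (∏ i, Q i (sOf t B (move (Sum.elim (fun _ : J => a) e) y
        fun q => r q / (1 - 2 * p q) + (Real.sqrt (1 - 2 * p q))⁻¹ * z q) i)) =
      ∏ i, Q i (s0 i + ∑ q, rowOf t (fun j => B j * a / Real.sqrt (d j)) e i q * z q) := by
    intro z
    refine prod_congr rfl fun i _ => ?_
    congr 1
    rw [sum_rowOf, hs0, sOf, sOf]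
    simp only [move, Sum.elim_inl, Sum.elim_inr, h1p]
    have ei : r (Sum.inr i) / (1 - 2 * p (Sum.inr i)) +
        (Real.sqrt (1 - 2 * p (Sum.inr i)))⁻¹ * z (Sum.inr i) = z (Sum.inr i) := by
      simp [hp, hr]
    rw [ei]
    have es : ∀ j, (if t j = i then
        B j * (y (Sum.inl j) + a * (r (Sum.inl j) / d j + (Real.sqrt (d j))⁻¹ * z (Sum.inl j)))
        else 0) = (if t j = i then B j / d j * y (Sum.inl j) else 0) +
          if t j = i then B j * a / Real.sqrt (d j) * z (Sum.inl j) else 0 := by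
      intro j
      split
      · have h := (hd0 j).ne'
        simp only [hr, Sum.elim_inl]
        field_simp
        linear_combination B j * y (Sum.inl j) * (rfl : d j = 1 + m * A j * v) -
          B j * y (Sum.inl j) * m * A j * ha2
      · simp
    rw [sum_congr rfl fun j _ => es j, sum_add_distrib]
    ring
  set w : Fin k → ℝ :=
    fun i => (∑ j, if t j = i then B j ^ 2 * v / d j else 0) + e i ^ 2 with hw
  have hw2 : ∀ i, ∑ q, rowOf t (fun j => B j * a / Real.sqrt (d j)) e i q ^ 2 = w i := fun i => by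
    rw [rowOf_sq, hw]
    simp only [div_pow, mul_pow, ha2, Real.sq_sqrt (hd0 _).le]
  have hpos : ∀ i, 0 < ∫ x, Q i (s0 i + Real.sqrt (w i) * x) ∂gaussianReal 0 1 := fun i =>
    (hg i).step_pos hm _ _
  have hint : ∫ z, Real.exp (m * quadU t A B g c (move (Sum.elim (fun _ : J => a) e) y z))
      ∂gauss (J ⊕ Fin k) =
      Real.exp (m * (c - (∑ j, A j * y (Sum.inl j) ^ 2) / 2)) * ((∏ q, tiltZ (p q) (r q)) *
        ∏ i, ∫ x, Q i (s0 i + Real.sqrt (w i) * x) ∂gaussianReal 0 1) := by
    simp only [hsplit, integral_const_mul]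
    congr 1
    rw [integral_tilt p r hp2 (G := fun z =>
      ∏ i, Q i (sOf t B (move (Sum.elim (fun _ : J => a) e) y z) i))]
    · congr 1
      simp only [hshift]
      rw [integral_gauss_lin _ (rowOf_disjoint t _ e)
        (F := fun s => ∏ i, Q i (s0 i + s i)) (by fun_prop)]
      simp only [hw2]
      exact integral_fintype_prod_eq_prod fun i x => Q i (s0 i + Real.sqrt (w i) * x)
    · refine continuous_finsetProd _ fun i _ => (hQc i).comp ?_
      unfold sOf move
      refine Continuous.add (continuous_finsetSum _ fun j _ => ?_) (by fun_prop)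
      split <;> fun_prop
  have hZ : Real.log (∏ q, tiltZ (p q) (r q)) =
      ∑ j, (m ^ 2 * A j ^ 2 * v * y (Sum.inl j) ^ 2 / (2 * d j) - Real.log (d j) / 2) := by
    rw [Real.log_prod fun q _ => (tiltZ_pos (hp2 q) _).ne', Fintype.sum_sum_type]
    have e0 : ∑ i, Real.log (tiltZ (p (Sum.inr i)) (r (Sum.inr i))) = 0 :=
      sum_eq_zero fun i _ => by simp [hp, hr, tiltZ]
    rw [e0, add_zero]
    refine sum_congr rfl fun j _ => ?_
    rw [tiltZ, Real.log_div (Real.exp_pos _).ne' (Real.sqrt_pos.2 (by rw [h1p]; exact hd0 j)).ne',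
      Real.log_exp, h1p, Real.log_sqrt (hd0 j).le]
    simp only [hr, Sum.elim_inl, neg_sq, mul_pow, ha2]
  rw [stepLog, hint, Real.log_mul (Real.exp_pos _).ne'
    (mul_pos (prod_pos fun q _ => tiltZ_pos (hp2 q) _) (prod_pos fun i _ => hpos i)).ne',
    Real.log_mul (prod_pos fun q _ => tiltZ_pos (hp2 q) _).ne' (prod_pos fun i _ => hpos i).ne',
    Real.log_exp, Real.log_prod fun i _ => (hpos i).ne', hZ, mul_add, mul_add,
    inv_mul_cancel_left₀ hm.ne', sum_sub_distrib]
  show _ = c - (∑ j, Real.log (d j)) / (2 * m) - (∑ j, A j / d j * y (Sum.inl j) ^ 2) / 2 +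
    ∑ i, m⁻¹ * Real.log (∫ x, Q i (s0 i + Real.sqrt (w i) * x) ∂gaussianReal 0 1)
  have e3 : (∑ j, A j / d j * y (Sum.inl j) ^ 2) / 2 =
      (∑ j, A j * y (Sum.inl j) ^ 2) / 2 -
        m⁻¹ * ∑ j, m ^ 2 * A j ^ 2 * v * y (Sum.inl j) ^ 2 / (2 * d j) := by
    rw [sum_div, sum_div, mul_sum, ← sum_sub_distrib]
    refine sum_congr rfl fun j _ => ?_
    have h := (hd0 j).ne'
    field_simp
    simp only [hd]
    ring
  rw [e3, ← mul_sum, ← sum_div]
  ring

end QuadC

end Vale.Agent.P166.Parisi
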