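import Vale.Agent.P166.Parisi.QuadCascade.Gauss
import Vale.Agent.P157.Parisi.CalcBasic

/-!
The exact value of the recursion from quadratically coupled spins: the Gaussian coordinates are
integrated level by level and leave one spin in a field for each extra spin.
-/

namespace Vale.Agent.P166.Parisi

open MeasureTheory ProbabilityTheory Finset
open Vale.Agent.P157 Vale.Agent.P157.Parisi

namespace QuadC

variable {J : Type} [Fintype J] {k : ℕ}

/-- The uniform law of `k` signs and a linear exponent. -/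
lemma sum_exp_spins (s : Fin k → ℝ) :
    ∑ τ : Fin k → Bool, Real.exp (∑ i, spin τ i * s i) = ∏ i, (2 * Real.cosh (s i)) := by
  have e : ∀ x : ℝ, 2 * Real.cosh x = ∑ b : Bool, Real.exp ((if b then 1 else -1) * x) := fun x => by
    rw [Fintype.sum_bool, if_pos rfl, if_neg Bool.false_ne_true, one_mul, neg_mul, one_mul,
      Real.cosh_eq]
    ring
  simp only [e, Fintype.prod_sum, ← Real.exp_sum]
  rfl

lemma tauLog_quad (t : J → Fin k) (E Bc : J → ℝ) :
    tauLog t (fun j => quadPsi (E j) (Bc j)) =
      quadU t E Bc (fun _ x => Real.log (Real.cosh x)) 0 := by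
  funext y
  have hs : ∀ τ : Fin k → Bool,
      (∑ j, quadPsi (E j) (Bc j) (spin τ (t j) * y (Sum.inl j))) + ∑ i, spin τ i * y (Sum.inr i) =
        -((∑ j, E j * y (Sum.inl j) ^ 2) / 2) + ∑ i, spin τ i * sOf t Bc y i := by
    intro τ
    have hsq : ∀ i, spin τ i ^ 2 = 1 := fun i => by unfold spin; split <;> norm_num
    simp only [sOf, mul_add, mul_sum, sum_add_distrib, mul_ite, mul_zero]
    rw [sum_comm]
    simp only [sum_ite_eq, mem_univ, if_true, quadPsi, mul_pow, hsq, one_mul, sum_sub_distrib,
      sum_div]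
    rw [sum_congr rfl fun j (_ : j ∈ univ) => show Bc j * (spin τ (t j) * y (Sum.inl j)) =
      spin τ (t j) * (Bc j * y (Sum.inl j)) by ring]
    ring
  simp only [tauLog, hs, Real.exp_add, ← mul_sum, sum_exp_spins, prod_mul_distrib, prod_const,
    card_univ, Fintype.card_fin]
  rw [show 1 / (2 : ℝ) ^ k * (Real.exp (-((∑ j, E j * y (Sum.inl j) ^ 2) / 2)) *
      (2 ^ k * ∏ i, Real.cosh (sOf t Bc y i))) =
      Real.exp (-((∑ j, E j * y (Sum.inl j) ^ 2) / 2)) * ∏ i, Real.cosh (sOf t Bc y i) by
    field_simp,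
    Real.log_mul (Real.exp_pos _).ne' (prod_pos fun i _ => Real.cosh_pos _).ne', Real.log_exp,
    Real.log_prod fun i _ => (Real.cosh_pos _).ne', quadU]
  ring

/-- The weighted total variance above level `l`. -/
noncomputable def csum (K : ℕ) (π : ℕ → ℝ) (l : ℕ) : ℝ :=
  ∑ n ∈ Ico l (K + 1), gridX K (n + 1) * (π (n + 1) - π n)

lemma gridX_eq {K l : ℕ} (hl : l ≤ K + 1) : gridX K l = lvl K l :=
  min_eq_right ((div_le_one (by positivity)).2 (by exact_mod_cast hl))

lemma lvl_pos (K l : ℕ) : 0 < lvl K (l + 1) := by unfold lvl; positivity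

lemma lvl_top (K : ℕ) : lvl K (K + 1) = 1 := by
  unfold lvl; push_cast; exact div_self (by positivity)

lemma csum_top (K : ℕ) (π : ℕ → ℝ) : csum K π (K + 1) = 0 := by simp [csum]

lemma csum_succ {K l : ℕ} (hl : l ≤ K) (π : ℕ → ℝ) :
    csum K π l = csum K π (l + 1) + gridX K (l + 1) * (π (l + 1) - π l) := by
  rw [csum, csum, sum_eq_sum_Ico_succ_bot (Nat.lt_succ_of_le hl), add_comm]

lemma csum_nonneg {K : ℕ} {π : ℕ → ℝ} (hπ : IsPath π) (l : ℕ) : 0 ≤ csum K π l := by
  refine sum_nonneg fun n hn => mul_nonneg ?_ (sub_nonneg.2 (hπ.1 n.le_succ))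
  rw [gridX_eq (by have := (mem_Ico.1 hn).2; omega)]
  exact (lvl_pos K n).le

/-- The field variance carried by one coordinate up to level `l`. -/
noncomputable def hterm (K : ℕ) (π : ℕ → ℝ) (E b : ℝ) (l : ℕ) : ℝ :=
  b ^ 2 * π 0 / (1 + E * csum K π 0) ^ 2 + ∑ n ∈ range l,
    b ^ 2 * (π (n + 1) - π n) / ((1 + E * csum K π (n + 1)) * (1 + E * csum K π n))

/-- The field of the extra spin `i`. -/
noncomputable def hPath (K : ℕ) (π : ℕ → ℝ) (E Bc : J → ℝ) (t : J → Fin k) (e : ℕ → Fin k → ℝ)
    (i : Fin k) (l : ℕ) : ℝ :=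
  (∑ j, if t j = i then hterm K π (E j) (Bc j) (min l K) else 0) + cumVar K (fun n => e n i) l

/-- The variance added to the field of `i` from level `l` to `l + 1`. -/
noncomputable def wLev (K : ℕ) (π : ℕ → ℝ) (E Bc : J → ℝ) (t : J → Fin k) (e : ℕ → Fin k → ℝ)
    (i : Fin k) (l : ℕ) : ℝ :=
  (∑ j, if t j = i then Bc j ^ 2 * (π (l + 1) - π l) /
    ((1 + E j * csum K π (l + 1)) * (1 + E j * csum K π l)) else 0) + e (l + 1) i ^ 2

/-- The value of one quadratic coordinate. -/
noncomputable def qTerm (K : ℕ) (π : ℕ → ℝ) (E : ℝ) : ℝ :=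
  -(∑ l ∈ range (K + 1), (Real.log (1 + E * csum K π l) - Real.log (1 + E * csum K π (l + 1))) /
    lvl K (l + 1)) / 2 - π 0 * E / (1 + E * csum K π 0) / 2

lemma hPath_succ {K l : ℕ} (hl : l < K) (π : ℕ → ℝ) (E Bc : J → ℝ) (t : J → Fin k)
    (e : ℕ → Fin k → ℝ) (i : Fin k) :
    hPath K π E Bc t e i (l + 1) - hPath K π E Bc t e i l = wLev K π E Bc t e i l := by
  have h1 : min (l + 1) K = l + 1 := by omega
  have h2 : min l K = l := by omega
  simp only [hPath, wLev, cumVar, hterm, h1, h2, sum_range_succ _ (l + 1), sum_range_succ _ l]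
  rw [add_sub_add_comm, ← sum_sub_distrib, add_sub_cancel_left]
  congr 1
  refine sum_congr rfl fun j _ => ?_
  split <;> ring

theorem tauFree_quad (K : ℕ) {π : ℕ → ℝ} (hπ : IsPath π) (E Bc : J → ℝ) (hE : ∀ j, 0 ≤ E j)
    (t : J → Fin k) (e : ℕ → Fin k → ℝ) :
    tauFree K π e t (fun j => quadPsi (E j) (Bc j)) = (∑ j, qTerm K π (E j)) +
      ∑ i, (isingField K (hPath K π E Bc t e i) + hPath K π E Bc t e i K / 2 +
        wLev K π E Bc t e i K / 2) := by
  set N := tauNest (J := J) K π e with hN
  set U := tauLog t (fun j => quadPsi (E j) (Bc j)) with hU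
  set H := hPath K π E Bc t e
  set W := wLev K π E Bc t e
  set d : ℕ → J → ℝ := fun l j => 1 + E j * csum K π l with hd
  have hd0 : ∀ l j, 0 < d l j := fun l j => by
    have := mul_nonneg (hE j) (csum_nonneg (K := K) hπ l)
    simp only [hd]; linarith
  set C : ℕ → ℝ := fun l => -∑ n ∈ Ico l (K + 1),
    (∑ j, (Real.log (d n j) - Real.log (d (n + 1) j))) / (2 * lvl K (n + 1)) with hC
  set lc : ℝ → ℝ := fun x => Real.log (Real.cosh x)
  have hstep : ∀ l ≤ K, ∀ (g : Fin k → ℝ → ℝ), (∀ i, Lip1 (g i)) →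
      stepLog (N.x (l + 1)) (N.amp (l + 1))
        (quadU t (fun j => E j / d (l + 1) j) (fun j => Bc j / d (l + 1) j) g (C (l + 1))) =
      quadU t (fun j => E j / d l j) (fun j => Bc j / d l j)
        (fun i => gaussStep (lvl K (l + 1)) (W i l) (g i)) (C l) := by
    intro l hl g hg
    have hx : N.x (l + 1) = lvl K (l + 1) := gridX_eq (by omega)
    have hamp : N.amp (l + 1) =
        Sum.elim (fun _ : J => Real.sqrt (π (l + 1) - π l)) (e (l + 1)) := by
      simp [hN, tauNest]
    rw [hx, hamp, stepLog_quadU t _ _ (fun j => div_nonneg (hE j) (hd0 _ j).le) g hg _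
      (lvl_pos K l) (sub_nonneg.2 (hπ.1 l.le_succ))]
    have hc : csum K π l = csum K π (l + 1) + lvl K (l + 1) * (π (l + 1) - π l) := by
      rw [csum_succ hl, gridX_eq (by omega)]
    have hden : ∀ j, 1 + lvl K (l + 1) * (E j / d (l + 1) j) * (π (l + 1) - π l) =
        d l j / d (l + 1) j := fun j => by
      rw [eq_div_iff (hd0 _ j).ne', add_mul, one_mul, show lvl K (l + 1) * (E j / d (l + 1) j) *
        (π (l + 1) - π l) * d (l + 1) j = lvl K (l + 1) * E j * (π (l + 1) - π l) by
          field_simp [(hd0 (l + 1) j).ne']]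
      simp only [hd]
      rw [hc]; ring
    simp only [hden]
    have ediv : ∀ (x : ℝ) (j : J), x / d (l + 1) j / (d l j / d (l + 1) j) = x / d l j :=
      fun x j => div_div_div_cancel_right₀ (hd0 _ j).ne' _ _
    simp only [ediv]
    congr 1
    · funext i
      congr 1
      simp only [W, wLev]
      congr 1
      refine sum_congr rfl fun j _ => ?_
      split
      · have h1 := (hd0 l j).ne'
        have h2 := (hd0 (l + 1) j).ne'
        simp only [hd] at h1 h2 ⊢
        field_simp
      · rfl
    · simp only [hC]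
      rw [sum_eq_sum_Ico_succ_bot (Nat.lt_succ_of_le hl)]
      simp only [Real.log_div (hd0 l _).ne' (hd0 (l + 1) _).ne']
      ring
  have hlip : ∀ i n, n ≤ K → Lip1 (descend K (H i) lc n) := by
    intro i n
    induction n with
    | zero => exact fun _ => lip1_logCosh
    | succ n ih =>
      intro hn
      obtain ⟨l, hl⟩ : ∃ l, K - n = l + 1 := ⟨K - n - 1, by omega⟩
      have := (ih (by omega)).gaussStep (lvl_pos K l) (H i (K - n) - H i (K - n - 1))
      rw [← hl] at this
      exact this
  have hW : ∀ i, 0 ≤ W i K := fun i => by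
    refine add_nonneg (sum_nonneg fun j _ => ?_) (sq_nonneg _)
    split
    · exact div_nonneg (mul_nonneg (sq_nonneg _) (sub_nonneg.2 (hπ.1 K.le_succ)))
        (mul_nonneg (hd0 _ j).le (hd0 _ j).le)
    · exact le_rfl
  have key : ∀ n ≤ K, N.u U (K - n) = quadU t (fun j => E j / d (K - n) j)
      (fun j => Bc j / d (K - n) j) (fun i y => descend K (H i) lc n y + W i K / 2) (C (K - n)) := by
    intro n
    induction n with
    | zero =>
      intro _
      rw [Nat.sub_zero, u_succ (show K < N.K from Nat.lt_succ_self K),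
        u_top (show N.K ≤ K + 1 from le_rfl), hU, tauLog_quad]
      have := hstep K le_rfl (fun _ => lc) fun _ => lip1_logCosh
      simp only [hd, csum_top, mul_zero, add_zero, div_one, hC, Ico_self, sum_empty, neg_zero]
        at this
      rw [this, lvl_top]
      simp only [hd, hC]
      congr 1
      funext i y
      rw [gaussStep_logCosh (hW i)]
      rfl
    | succ n ih =>
      intro hn
      obtain ⟨l, hl⟩ : ∃ l, K - n = l + 1 := ⟨K - n - 1, by omega⟩
      have hl' : K - (n + 1) = l := by omega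
      rw [hl', u_succ (show l < N.K by show l < K + 1; omega), ← hl, ih (by omega), hl,
        hstep l (by omega) _ fun i => (hlip i n (by omega)).add_const _]
      congr 1
      funext i y
      rw [gaussStep_add_const (hlip i n (by omega)) (lvl_pos K l)]
      congr 1
      show _ = gaussStep (lvl K (K - n)) (H i (K - n) - H i (K - n - 1)) _ y
      rw [hl, Nat.add_sub_cancel, hPath_succ (by omega)]
  have h0 := key K le_rfl
  rw [Nat.sub_self] at h0
  show N.mean U 0 (N.u U 0) = _
  rw [h0]
  simp only [Nest.mean]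
  have hamp0 : N.amp 0 = Sum.elim (fun _ : J => Real.sqrt (π 0)) (e 0) := by simp [hN, tauNest]
  set row : Fin k → J ⊕ Fin k → ℝ :=
    fun i => rowOf t (fun j => Bc j / d 0 j * Real.sqrt (π 0)) (e 0) i
  have hrow : ∀ (i : Fin k) (z : J ⊕ Fin k → ℝ), sOf t (fun j => Bc j / d 0 j) (fun q => N.amp 0 q * z q) i =
      ∑ q, row i q * z q := fun i z => by
    simp only [row, sum_rowOf, sOf, hamp0, Sum.elim_inl, Sum.elim_inr, mul_assoc]
  have hH0 : ∀ i, ∑ q, row i q ^ 2 = H i 0 := fun i => by
    simp only [row, rowOf_sq, H, hPath, cumVar, hterm, Nat.zero_min, range_zero, sum_empty,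
      add_zero, zero_add, range_one, sum_singleton, mul_pow, div_pow, Real.sq_sqrt hπ.2, hd]
    congr 1
    refine sum_congr rfl fun j _ => ?_
    split <;> ring
  set g : Fin k → ℝ → ℝ := fun i y => descend K (H i) lc K y + W i K / 2
  have hg : ∀ i, Lip1 (g i) := fun i => (hlip i K le_rfl).add_const _
  have hsq : ∀ q : J ⊕ Fin k, Integrable (fun z : J ⊕ Fin k → ℝ => z q ^ 2) (gauss _) := fun q =>
    (tame_coord q).sq.integrable
  have hm2 : ∀ q : J ⊕ Fin k, ∫ z, z q ^ 2 ∂gauss (J ⊕ Fin k) = 1 := fun q => by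
    rw [show gauss (J ⊕ Fin k) = Measure.pi fun _ : J ⊕ Fin k => gaussianReal 0 1 from rfl,
      integral_comp_eval (μ := fun _ : J ⊕ Fin k => gaussianReal 0 1) (i := q)
        (f := fun x : ℝ => x ^ 2) (by fun_prop)]
    have := variance_id_gaussianReal (μ := 0) (v := 1)
    rw [variance_eq_integral (by fun_prop)] at this
    simpa using this
  have hQ : Integrable (fun z : J ⊕ Fin k → ℝ =>
      C 0 - (∑ j, E j / d 0 j * π 0 * z (Sum.inl j) ^ 2) / 2) (gauss _) :=
    (integrable_const _).sub ((integrable_finsetSum _ fun j _ => (hsq _).const_mul _).div_const _)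
  have hgi : ∀ (i : Fin k), Integrable (fun z : J ⊕ Fin k → ℝ => g i (∑ q, row i q * z q))
      (gauss _) := by
    intro i
    have hlin : Integrable (fun z : J ⊕ Fin k → ℝ => |g i 0| + ∑ q, |row i q| * |z q|) (gauss _) :=
      (integrable_const _).add (integrable_finsetSum _ fun q _ =>
        ((tame_coord q).abs.integrable).const_mul _)
    refine hlin.mono' ((hg i).continuous.comp (by fun_prop)).aestronglyMeasurable
      (.of_forall fun z => ?_)
    rw [Real.norm_eq_abs]
    have h1 := (hg i).abs_sub (∑ q, row i q * z q) 0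
    rw [sub_zero] at h1
    have h2 := abs_sum_le_sum_abs (fun q => row i q * z q) univ
    simp only [abs_mul] at h2
    linarith [abs_sub_abs_le_abs_sub (g i (∑ q, row i q * z q)) (g i 0)]
  have hfun : ∀ z : J ⊕ Fin k → ℝ,
      quadU t (fun j => E j / d 0 j) (fun j => Bc j / d 0 j) g (C 0) (fun q => N.amp 0 q * z q) =
        (C 0 - (∑ j, E j / d 0 j * π 0 * z (Sum.inl j) ^ 2) / 2) +
          ∑ i, g i (∑ q, row i q * z q) := fun z => by
    simp only [quadU, hrow]
    simp only [hamp0, Sum.elim_inl, mul_pow, Real.sq_sqrt hπ.2, ← mul_assoc]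
  simp only [hfun]
  rw [integral_add hQ (integrable_finsetSum _ fun i _ => hgi i),
    integral_finsetSum _ fun i _ => hgi i, integral_sub (integrable_const _)
      ((integrable_finsetSum _ fun j _ => (hsq _).const_mul _).div_const _), integral_const,
    integral_div, integral_finsetSum _ fun j _ => (hsq _).const_mul _]
  simp only [integral_const_mul, hm2, mul_one, probReal_univ, one_smul]
  have hcas : ∀ i, ∫ z, g i (∑ q, row i q * z q) ∂gauss (J ⊕ Fin k) =
      cascade K (H i) lc + W i K / 2 := fun i => by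
    have := integral_gauss_lin (k := k) row (rowOf_disjoint t _ _) (F := fun s => g i (s i))
      ((hg i).continuous.comp (continuous_apply i))
    simp only [hH0] at this
    rw [this, show gauss (Fin k) = Measure.pi fun _ : Fin k => gaussianReal 0 1 from rfl,
      integral_comp_eval (μ := fun _ : Fin k => gaussianReal 0 1) (i := i)
        (f := fun x => g i (Real.sqrt (H i 0) * x))
        ((hg i).continuous.comp (by fun_prop)).aestronglyMeasurable]
    simp only [g]
    rw [integral_add (by simpa using (hlip i K le_rfl).integrable (Real.sqrt (H i 0)) 0)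
      (integrable_const _), integral_const, probReal_univ, one_smul]
    rfl
  simp only [hcas]
  have hq : C 0 - (∑ j, E j / d 0 j * π 0) / 2 = ∑ j, qTerm K π (E j) := by
    simp only [qTerm, hC, sum_sub_distrib, sum_neg_distrib, sum_div, neg_div, Nat.Ico_zero_eq_range]
    rw [sum_comm]
    congr 1
    · congr 1
      refine sum_congr rfl fun n _ => ?_
      rw [← sum_sub_distrib, sum_div]
      refine sum_congr rfl fun j _ => ?_
      simp only [hd]
      field_simp
    · refine sum_congr rfl fun j _ => ?_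
      simp only [hd]
      ring
  rw [hq]
  congr 1
  refine sum_congr rfl fun i _ => ?_
  simp only [isingField, lc]
  ring

end QuadC

end Vale.Agent.P166.Parisi
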