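import Vale.Agent.P166.Parisi.QuadCascade.Compress
import Vale.Agent.P166.Parisi.QuadCascade.Recursion
import Vale.Agent.P166.Parisi.Spec.Exact

/-!
The variance path of the top atom along a path of total overlaps.
-/

namespace Vale.Agent.P166.Parisi

open Finset
open Vale.Agent.P157.Parisi (lvl IsPath gridX)

variable {M : ℕ} [NeZero M] {a : Fin M → ℝ}

namespace QuadC

lemma chiOf_eq (ha : Monotone a) (c : ℝ) : (evenAtoms a ha).chiOf c = chi a c := by
  rw [Atoms.chiOf, chi, phi, mul_div_assoc', mul_sum, sum_div]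
  refine sum_congr rfl fun r _ => ?_
  show 1 / (M : ℝ) * c / (1 + gap a r * c) = _
  ring

lemma gain_eq (ha : Monotone a) (c : ℝ) : (evenAtoms a ha).gain c c = psi a c := by
  rw [Atoms.gain, psi, sum_div]
  refine sum_congr rfl fun r _ => ?_
  show 1 / (M : ℝ) / ((1 + gap a r * c) * (1 + gap a r * c)) = _
  ring

/-- The normalised overlap of the top atom at level `l`. -/
noncomputable def topC (a : Fin M → ℝ) (ha : Monotone a) (K : ℕ) (q : ℕ → ℝ) (l : ℕ) : ℝ :=
  (evenAtoms a ha).topOf (eigPath K q l)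

lemma topC_nonneg (ha : Monotone a) (K : ℕ) (q : ℕ → ℝ) (l : ℕ) : 0 ≤ topC a ha K q l :=
  (evenAtoms a ha).topOf_nonneg _

lemma eigPath_line (K : ℕ) (q : ℕ → ℝ) {l : ℕ} (hl : l ≤ K) :
    eigPath K q l = pathLine K q l (q l) :=
  eig_pathMat K q hl

lemma eigPath_step (K : ℕ) (q : ℕ → ℝ) {l : ℕ} (hl : l < K) :
    eigPath K q l = eigPath K q (l + 1) + lvl K (l + 1) * (q (l + 1) - q l) :=
  SMat.eig_step (gridOf K) ⟨1, q⟩ hl

lemma eigPath_top (K : ℕ) (q : ℕ → ℝ) : eigPath K q K = 1 - q K :=
  SMat.eig_top (gridOf K) ⟨1, q⟩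

variable {K : ℕ} {q : ℕ → ℝ}

lemma path_le (hq : IsPath q) (h1 : q K ≤ 1) {l : ℕ} (hl : l ≤ K) : q l ∈ Set.Icc (0 : ℝ) 1 :=
  ⟨hq.2.trans (hq.1 l.zero_le), (hq.1 hl).trans h1⟩

lemma chiPath_node (hq : IsPath q) {l : ℕ} (hl : l ≤ K) :
    chiPath K q (q l) = eigPath K q l := by
  rw [eigPath_line K q hl, chiPath_eq_line (l := l) (by omega) (fun j hj => hq.1 hj.le)
    fun j hj _ => hq.1 hj]

lemma eigPath_nonneg (hq : IsPath q) (h1 : q K ≤ 1) {l : ℕ} (hl : l ≤ K) : 0 ≤ eigPath K q l := by
  rw [← chiPath_node hq hl]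
  exact (chiPath_mem hq h1 (path_le hq h1 hl)).1

lemma eigPath_anti (hq : IsPath q) {l : ℕ} (hl : l < K) :
    eigPath K q (l + 1) ≤ eigPath K q l := by
  have := mul_nonneg (lvl_pos K l).le (sub_nonneg.2 (hq.1 l.le_succ))
  rw [eigPath_step K q hl]; linarith

lemma chi_topC (ha : Monotone a) (hq : IsPath q) (h1 : q K ≤ 1) {l : ℕ} (hl : l ≤ K) :
    chi a (topC a ha K q l) = eigPath K q l := by
  rw [← chiOf_eq ha]
  exact (chiOf_topOf _ (eigPath_nonneg hq h1 hl)).2

lemma topPath_le (ha : Monotone a) (K : ℕ) (q : ℕ → ℝ) {l : ℕ} (hl : l ≤ K) :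
    topPath a ha K q l = q 0 / psi a (topC a ha K q 0) +
      ∑ j ∈ range l, (topC a ha K q j - topC a ha K q (j + 1)) / lvl K (j + 1) := by
  have hM := (natM_pos (M := M)).ne'
  rw [topPath, if_pos hl]
  simp only [exactMat, SMat.ofEig, show topA M = (evenAtoms a ha).top from rfl, Atoms.dPart_top,
    Atoms.part_top, gain_eq, mul_add, mul_sum]
  show _ + ∑ j ∈ range l, _ = _
  congr 1
  · show (M : ℝ) * (1 / (M : ℝ) / _ * q 0) = _
    field_simp
    rfl
  · refine sum_congr rfl fun j _ => ?_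
    show (M : ℝ) * ((1 / (M : ℝ) * topC a ha K q j - 1 / (M : ℝ) * topC a ha K q (j + 1)) /
      lvl K (j + 1)) = _
    field_simp

lemma topPath_gt (ha : Monotone a) (K : ℕ) (q : ℕ → ℝ) {l : ℕ} (hl : K < l) :
    topPath a ha K q l = topPath a ha K q K + topC a ha K q K := by
  have hM := (natM_pos (M := M)).ne'
  rw [topPath, topPath, if_neg (by omega), if_pos le_rfl, exactMat, SMat.ofEig, mul_add,
    show (gridOf K).K = K from rfl, add_comm]
  congr 1
  rw [show topA M = (evenAtoms a ha).top from rfl, Atoms.part_top]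
  show (M : ℝ) * (1 / (M : ℝ) * topC a ha K q K) = _
  field_simp

lemma topPath_incr (ha : Monotone a) (q : ℕ → ℝ) {l : ℕ} (hl : l < K) :
    topPath a ha K q (l + 1) - topPath a ha K q l =
      (topC a ha K q l - topC a ha K q (l + 1)) / lvl K (l + 1) := by
  rw [topPath_le ha K q hl, topPath_le ha K q hl.le, sum_range_succ]; ring

lemma topC_anti (ha : Monotone a) (hq : IsPath q) (h1 : q K ≤ 1) {l : ℕ} (hl : l < K) :
    topC a ha K q (l + 1) ≤ topC a ha K q l :=
  Atoms.topOf_mono _ (eigPath_nonneg hq h1 hl) (eigPath_anti hq hl)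

lemma isPath_topPath (ha : Monotone a) (hq : IsPath q) (h1 : q K ≤ 1) :
    IsPath (topPath a ha K q) := by
  refine ⟨monotone_nat_of_le_succ fun l => ?_, ?_⟩
  · rcases lt_trichotomy l K with hl | rfl | hl
    · have := topPath_incr ha q hl
      have := div_nonneg (sub_nonneg.2 (topC_anti ha hq h1 hl)) (lvl_pos K l).le
      linarith
    · rw [topPath_gt ha l q l.lt_succ_self]
      linarith [topC_nonneg ha l q l]
    · rw [topPath_gt ha K q hl, topPath_gt ha K q (by omega : K < l + 1)]
  · rw [topPath_le ha K q K.zero_le, range_zero, sum_empty, add_zero]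
    exact div_nonneg hq.2 (psi_pos ha (topC_nonneg ha K q 0)).le

lemma csum_topPath (ha : Monotone a) (q : ℕ → ℝ) {l : ℕ} (hl : l ≤ K) :
    csum K (topPath a ha K q) l = topC a ha K q l := by
  induction hd : K - l generalizing l with
  | zero =>
    obtain rfl : l = K := by omega
    rw [csum_succ le_rfl, csum_top, gridX_eq le_rfl, lvl_top, topPath_gt ha l q l.lt_succ_self]
    ring
  | succ n ih =>
    have hlt : l < K := by omega
    rw [csum_succ hl, ih (l := l + 1) hlt (by omega), gridX_eq (by omega), topPath_incr ha q hlt,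
      mul_div_cancel₀ _ (lvl_pos K l).ne']
    ring

lemma eigPath_const (q : ℕ → ℝ) {L0 : ℕ} (hL : L0 ≤ K) (h : ∀ l ≤ L0, q l = q 0) :
    ∀ l ≤ L0, eigPath K q l = eigPath K q 0 := by
  intro l
  induction l with
  | zero => exact fun _ => rfl
  | succ n ih =>
    intro hn
    have := eigPath_step K q (show n < K by omega)
    rw [h (n + 1) hn, h n (by omega), sub_self, mul_zero, add_zero, ih (by omega)] at this
    exact this.symm

end QuadC

open QuadC

theorem topPath_path {a : Fin M → ℝ} (ha : Monotone a) (K : ℕ) {q : ℕ → ℝ} (hq : IsPath q)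
    (h1 : q K ≤ 1) :
    IsPath (topPath a ha K q) ∧ topPath a ha K q (K + 1) ≤ M ∧
      ∀ L0 ≤ K, (∀ l ≤ L0, q l = q 0) → ∀ l ≤ L0, topPath a ha K q l = topPath a ha K q 0 := by
  refine ⟨isPath_topPath ha hq h1, ?_, ?_⟩
  · have hM := natM_pos (M := M)
    have hp : (evenAtoms a ha).p (evenAtoms a ha).top = 1 / (M : ℝ) := rfl
    have hlip : ∀ {x y : ℝ}, 0 ≤ y → y ≤ x →
        (evenAtoms a ha).topOf x - (evenAtoms a ha).topOf y ≤ M * (x - y) := fun {x y} hy hxy => by
      have h := (le_abs_self _).trans ((evenAtoms a ha).abs_topOf_sub_le hy (hy.trans hxy))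
      rw [hp, abs_of_nonneg (sub_nonneg.2 hxy)] at h
      exact h.trans_eq (by field_simp)
    have hK : topC a ha K q K ≤ M * (1 - q K) := by
      have := hlip le_rfl (eigPath_nonneg hq h1 (le_refl K))
      rw [Atoms.topOf_zero, eigPath_top, sub_zero, sub_zero] at this
      rw [topC, eigPath_top]
      exact this
    have h0 : q 0 / psi a (topC a ha K q 0) ≤ M * q 0 := by
      rw [div_le_iff₀ (psi_pos ha (topC_nonneg ha K q 0))]
      have := mul_le_mul_of_nonneg_left (psi_ge ha (topC_nonneg ha K q 0))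
        (mul_nonneg hM.le hq.2)
      rwa [mul_right_comm, mul_one_div, div_self hM.ne', one_mul] at this
    have hs : ∑ j ∈ range K, (topC a ha K q j - topC a ha K q (j + 1)) / lvl K (j + 1) ≤
        ∑ j ∈ range K, (M : ℝ) * (q (j + 1) - q j) := sum_le_sum fun j hj => by
      have hj' := mem_range.1 hj
      rw [div_le_iff₀ (lvl_pos K j)]
      refine (hlip (eigPath_nonneg hq h1 hj') (eigPath_anti hq hj')).trans_eq ?_
      rw [eigPath_step K q hj']
      ring
    rw [← mul_sum, sum_range_sub q] at hs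
    rw [topPath_gt ha K q K.lt_succ_self, topPath_le ha K q le_rfl]
    linarith
  · intro L0 hL h l hl
    rw [topPath_le ha K q (hl.trans hL), topPath_le ha K q K.zero_le, range_zero, sum_empty]
    congr 1
    refine sum_eq_zero fun j hj => ?_
    have hj' := mem_range.1 hj
    simp only [topC, eigPath_const q hL h j (by omega), eigPath_const q hL h (j + 1) (by omega),
      sub_self, zero_div]

theorem continuous_topPath {T : Type} [TopologicalSpace T] {a : Fin M → ℝ} (ha : Monotone a)
    (K : ℕ) {q : T → ℕ → ℝ} (hq : ∀ x, IsPath (q x)) (h1 : ∀ x, q x K ≤ 1)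
    (hc : ∀ l, Continuous fun x => q x l) (l : ℕ) :
    Continuous fun x => topPath a ha K (q x) l := by
  have hχ : ∀ j, Continuous fun x => eigPath K (q x) j := fun j => by
    unfold eigPath SMat.eig SMat.above
    fun_prop
  have htc : ∀ j ≤ K, Continuous fun x => topC a ha K (q x) j := fun j hj =>
    (evenAtoms a ha).continuousOn_topOf.comp_continuous (hχ j)
      fun x => eigPath_nonneg (hq x) (h1 x) hj
  have hle : ∀ l ≤ K, Continuous fun x => topPath a ha K (q x) l := fun l hl => by
    simp only [topPath_le ha K _ hl]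
    refine ((hc 0).div ?_ fun x => (psi_pos ha (topC_nonneg ha K (q x) 0)).ne').add
      (continuous_finsetSum _ fun j hj => ?_)
    · refine (continuous_finsetSum _ fun r _ => Continuous.inv₀ ((continuous_const.add
        (continuous_const.mul (htc 0 K.zero_le))).pow 2) fun x =>
          (pow_pos (den_pos ha (topC_nonneg ha K (q x) 0) r) 2).ne').div_const _
    · have hj' := mem_range.1 hj
      exact ((htc j (by omega)).sub (htc (j + 1) (by omega))).div_const _
  rcases le_or_gt l K with hl | hl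
  · exact hle l hl
  · simp only [topPath_gt ha K _ hl]
    exact (hle K le_rfl).add (htc K le_rfl)

end Vale.Agent.P166.Parisi
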